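import Vale.Agent.P153.R2.SDB.Tail2

/-!
# P153-R2, block SDB: the tail estimate `s_tail : S_tail`
-/

namespace Vale.Agent.P153.R2.SDB

open Set Relation MeasureTheory
open Vale.Agent.P153 Vale.Agent.P153.R2
open Vale.Agent.P153.Topo (Conn)
open Vale.Agent.P153.F (muT gb_of_plane)
open Vale.Agent.P153.F.X (S_int S_pos S_rsw S_mom S_emom)
open Vale.Agent.P153.F.X.LE (bL mem_bL exists_bL)
open Vale.Agent.P153.GFF (Plane SpecOut RowCLT)
open Vale.Agent.P153.A (IsQ rc)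
open Vale.Agent.P153.R2.Gp (On Esc DepS PinB DepB LocF dlr_Ex integrableOn_Ex finite_pin dep_esc)
open Vale.Agent.P153.R2.NH (Big)
open Vale.Agent.P153.R2.F2 (Cx RV thk NoCr bx_finite ng thk_bx)
open Vale.Agent.P153.R2.F2A (evS Sh)
open scoped Classical

/-- Until the first exit. -/
theorem first_exit {U S : Set Pt} {r : ℤ} {x y : Pt} (hx : x ∈ thk S (r - 1))
    (hy : y ∉ thk S (r - 1)) (h : Conn U x y) :
    ∃ z, z ∉ thk S (r - 1) ∧ Conn (U ∩ thk S r) x z := by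
  have hm : thk S (r - 1) ⊆ thk S r := F2.thk_mono S (by omega)
  have key := h.ind (fun z => (∃ z, z ∉ thk S (r - 1) ∧ Conn (U ∩ thk S r) x z) ∨
    (z ∈ thk S (r - 1) ∧ Conn (U ∩ thk S r) x z))
    (Or.inr ⟨hx, Conn.refl ⟨h.left_mem, hm hx⟩⟩) (fun u v _ huv hv ih => by
      rcases ih with h1 | ⟨h1, h2⟩
      · exact Or.inl h1
      · have h3 : v ∈ thk S r := by
          have := F2.thk_adj h1 huv
          rwa [sub_add_cancel] at this
        have h4 := h2.tail huv ⟨hv, h3⟩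
        by_cases h5 : v ∈ thk S (r - 1)
        · exact Or.inr ⟨h5, h4⟩
        · exact Or.inl ⟨v, h5, h4⟩)
  rcases key with h1 | ⟨h1, -⟩
  · exact h1
  · exact absurd h1 hy

/-- A failure of the shield produces a macroscopic high piece off `S`. -/
theorem sh_fail {S : Set Pt} {η h : Hg} {M L : ℕ} {p : Pt} {u r a : ℤ} (hh : Lip h)
    (hS : S ⊆ bx p u) (hη : ∀ x ∈ S, |η x| ≤ 2 * M + 1) (hML : M ≤ L) (ha : a ≤ 2 * L + 3)
    (hr : 1 ≤ r) (hev : h ∈ evS S η) (hsh : h ∉ Sh L S (2 * r) (3 * r - 1)) :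
    h ∈ Hi (r - 1) a (bx p (u + 3 * r) \ S) ∨ ng h ∈ Hi (r - 1) a (bx p (u + 3 * r) \ S) := by
  have h1 : ¬ NoCr {x | 2 * (L : ℤ) + 3 ≤ |h x|} (thk S (2 * r)) (thk S (3 * r - 1)) := hsh
  unfold NoCr at h1
  push Not at h1
  obtain ⟨x, hx, y, hy, hxy⟩ := h1
  have hm : thk S (2 * r) ⊆ thk S (3 * r - 1) := F2.thk_mono S (by omega)
  obtain ⟨z, hz, hxz⟩ := first_exit (hm hx) hy hxy
  set U : Set Pt := {x | 2 * (L : ℤ) + 3 ≤ |h x|} ∩ thk S (3 * r) with hU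
  have hd : r - 1 < |x.1 - z.1| ∨ r - 1 < |x.2 - z.2| := by
    obtain ⟨w, hw, h2, h3⟩ := hx
    by_contra hcon
    push Not at hcon
    apply hz
    refine ⟨w, hw, ?_, ?_⟩
    · have := hcon.1
      rw [abs_le] at h2 this ⊢
      omega
    · have := hcon.2
      rw [abs_le] at h3 this ⊢
      omega
  have hoff : ∀ v ∈ U, v ∈ bx p (u + 3 * r) \ S := by
    rintro v ⟨h2, h3⟩
    refine ⟨thk_bx hS h3, fun h4 => ?_⟩
    have h5 := hη v h4
    have h6 : h v = η v := hev v h4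
    have h7 : 2 * (L : ℤ) + 3 ≤ |h v| := h2
    rw [h6] at h7
    omega
  have hxU : 2 * (L : ℤ) + 3 ≤ |h x| := hxz.left_mem.1
  rcases le_or_gt 0 (h x) with h2 | h2
  · left
    refine ⟨x, z, ?_, hd⟩
    rw [abs_of_nonneg h2] at hxU
    have key := hxz.ind (fun z => 2 * (L : ℤ) + 3 ≤ h z ∧
      Conn ({x | a ≤ h x} ∩ (bx p (u + 3 * r) \ S)) x z)
      ⟨hxU, Conn.refl ⟨show a ≤ h x by omega, hoff x hxz.left_mem⟩⟩ (fun v w _ hvw hw ih => by
        have h3 : 2 * (L : ℤ) + 3 ≤ |h w| := hw.1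
        have h4 := abs_le.1 (hh.2 v w hvw)
        have h5 : 2 * (L : ℤ) + 3 ≤ h w := by
          have := ih.1
          rcases le_abs.1 h3 with h6 | h6 <;> omega
        exact ⟨h5, ih.2.tail hvw ⟨show a ≤ h w by omega, hoff w hw⟩⟩)
    exact key.2
  · right
    refine ⟨x, z, ?_, hd⟩
    rw [abs_of_neg h2] at hxU
    have key := hxz.ind (fun z => 2 * (L : ℤ) + 3 ≤ - h z ∧
      Conn ({x | a ≤ ng h x} ∩ (bx p (u + 3 * r) \ S)) x z)
      ⟨hxU, Conn.refl ⟨show a ≤ - h x by omega, hoff x hxz.left_mem⟩⟩ (fun v w _ hvw hw ih => by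
        have h3 : 2 * (L : ℤ) + 3 ≤ |h w| := hw.1
        have h4 := abs_le.1 (hh.2 v w hvw)
        have h5 : 2 * (L : ℤ) + 3 ≤ - h w := by
          have := ih.1
          rcases le_abs.1 h3 with h6 | h6 <;> omega
        exact ⟨h5, ih.2.tail hvw ⟨show a ≤ - h w by omega, hoff w hw⟩⟩)
    exact key.2

variable {Q : Measure A.Om}

/-- **The tail estimate.** -/
theorem s_tail {κ : ℝ} (hQ : IsQ Q) (hP : Plane (Q.map rc)) (hS : SpecOut (Q.map rc) κ)
    (hC : RowCLT (Q.map rc) κ) (hκ : 0 < κ) (hMom : S_mom (Q.map rc)) (hE : S_emom (Q.map rc))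
    (hR : S_rsw (Q.map rc)) (hint : S_int (Q.map rc)) (hpos : S_pos (Q.map rc)) :
    S_tail (Q.map rc) := by
  intro M K ε hK hε
  obtain ⟨a, s₀, hs₀, h1⟩ := tail_up hQ hP hS hC hκ hMom hE hR hint hpos M (K + 3) (by omega)
    (show 0 < ε / 2 by positivity)
  refine ⟨max M a, s₀, le_max_left _ _, hs₀, fun r hr p S η hβ hSK hη => ?_⟩
  have hr1 : 1 ≤ r := hs₀.trans hr
  have hSf : S.Finite := (bx_finite _ _).subset hSK
  set μ := muT (Q.map rc) with hμ
  set Sf : Finset Pt := hSf.toFinset with hSfd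
  have hmem : ∀ x, x ∈ Sf ↔ x ∈ S := fun x => by rw [hSfd, Set.Finite.mem_toFinset]
  have hOn : ∀ ζ : Hg, On Sf (fun x => {ζ x}) = evS S ζ := fun ζ => by
    ext h
    constructor
    · intro h2 x hx
      exact h2 x ((hmem x).2 hx)
    · intro h2 x hx
      exact h2 x ((hmem x).1 hx)
  set B₀ : Set Pt := bx p (((K + 3 : ℕ) : ℤ) * r) \ S with hB₀
  have hSc : (Sf : Set Pt) = S := by rw [hSfd, Set.Finite.coe_toFinset]
  have hup : ∀ ζ : Hg, (∀ x ∈ S, |ζ x| ≤ 2 * M + 1) →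
      μ.real (evS S ζ ∩ Hi (r - 1) a B₀) ≤ ε / 2 * μ.real (evS S ζ) := by
    intro ζ hζ
    have h2 := h1 r hr p Sf ζ (fun x hx => (hmem x).2 (hβ hx)) (fun x hx => hζ x ((hmem x).1 hx))
    rw [hOn, hSc] at h2
    exact h2
  have hpS : p ∈ S := hβ ⟨by rw [sub_self, abs_zero]; omega, by rw [sub_self, abs_zero]; omega⟩
  have hBf : B₀.Finite := (bx_finite p (((K + 3 : ℕ) : ℤ) * r)).subset Set.sdiff_subset
  obtain ⟨L, hL⟩ := exists_bL (Sf ∪ hBf.toFinset)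
  have dHi : DepS L (Hi (r - 1) a B₀) := fun g h hgh => Hi_congr fun x hx =>
    hgh x (hL (Finset.mem_union_right _ (hBf.mem_toFinset.2 hx)))
  have dO : ∀ ζ : Hg, DepS L (evS S ζ) := fun ζ => by
    rw [← hOn]
    exact Gp.On.dep (fun x hx => hL (Finset.mem_union_left _ hx)) _
  have pO : ∀ ζ : Hg, PinB L |ζ p| (evS S ζ) := fun ζ => by
    rw [← hOn]
    exact Gp.On.pin (fun x hx => hL (Finset.mem_union_left _ hx)) ((hmem p).2 hpS) fun b hb => by
      rw [Set.mem_singleton_iff] at hb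
      rw [hb]
  have f0 : ∀ ζ : Hg, μ (evS S ζ) ≠ ⊤ := fun ζ => finite_pin hP (dO ζ) (pO ζ)
  -- the other sign
  have hng : ∀ ζ : Hg, {h : Hg | ng h ∈ evS S (ng ζ)} = evS S ζ := fun ζ => by
    ext h
    constructor
    · intro h2 x hx
      have h3 : - h x = - ζ x := h2 x hx
      omega
    · intro h2 x hx
      show - h x = - ζ x
      rw [h2 x hx]
  have e1 : μ.real (evS S (ng η)) = μ.real (evS S η) := by
    rw [← real_ng hP (dO (ng η)) (pO (ng η)), hng]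
  have k1 := hup η hη
  have k2 := hup (ng η) fun x hx => by
    show |- η x| ≤ _
    rw [abs_neg]
    exact hη x hx
  rw [e1, ← real_ng hP ((dO (ng η)).inter dHi) (M := |ng η p|) (fun h hh hl =>
    pO (ng η) h hh.1 hl)] at k2
  set T₁ : Set Hg := evS S η ∩ Hi (r - 1) a B₀ with hT₁
  set T₂ : Set Hg := {h | ng h ∈ evS S (ng η) ∩ Hi (r - 1) a B₀} with hT₂
  have fT₁ : μ T₁ ≠ ⊤ := ne_top_of_le_ne_top (f0 η) (measure_mono Set.inter_subset_left)
  have fT₂ : μ T₂ ≠ ⊤ := ne_top_of_le_ne_top (f0 η) (measure_mono fun h hh => by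
    rw [← hng η]
    exact hh.1)
  have hae : ∀ᵐ h ∂μ, Lip h := by
    have := hQ.prob
    exact (gb_of_plane hP).lip
  have hsub : (evS S η \ Sh (max M a) S (2 * r) (3 * r - 1) : Set Hg) ≤ᵐ[μ] (T₁ ∪ T₂ : Set Hg) := by
    filter_upwards [hae] with h hh
    rintro ⟨h2, h3⟩
    have h4 := sh_fail (a := (a : ℤ)) hh hSK hη (le_max_left M a) (by
      have : (a : ℤ) ≤ (max M a : ℕ) := by exact_mod_cast le_max_right M a
      omega) hr1 h2 h3
    have e2 : (K : ℤ) * r + 3 * r = ((K + 3 : ℕ) : ℤ) * r := by push_cast; ring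
    rw [e2] at h4
    rcases h4 with h5 | h5
    · exact Or.inl ⟨h2, h5⟩
    · refine Or.inr ⟨?_, h5⟩
      have : h ∈ {h : Hg | ng h ∈ evS S (ng η)} := by rw [hng]; exact h2
      exact this
  have k3 : μ.real (evS S η \ Sh (max M a) S (2 * r) (3 * r - 1)) ≤ μ.real (T₁ ∪ T₂) := by
    unfold Measure.real
    refine ENNReal.toReal_mono ?_ (measure_mono_ae hsub)
    exact (measure_union_lt_top_iff.2 ⟨fT₁.lt_top, fT₂.lt_top⟩).ne
  have k4 := measureReal_union_le (μ := μ) T₁ T₂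
  linarith

end Vale.Agent.P153.R2.SDB
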