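import Vale.Agent.P153.R2.SDAR.Tigh
import Vale.Agent.P153.R2.F2.One

/-!
# P153-R2, block SDB: macroscopic high pieces, exact data bounded above (finite volume)

`cx_hi`: for exact data `≤ m - 1` on the outer boundary of an arbitrary set `W` in a box of radius
`N s`, pieces of `{h ≥ m + 4 n + 2}` of size more than `4 s` have probability at most `2 q ^ (n + 1)`.
-/

namespace Vale.Agent.P153.R2.SDB

open Set Relation MeasureTheory
open Vale.Agent.P153 Vale.Agent.P153.R2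
open Vale.Agent.P153.Topo (Conn)
open Vale.Agent.P153.F.X (S_int S_pos S_rsw)
open Vale.Agent.P153.R2.NH (Big UU mem_UU_of_lt nh_box)
open Vale.Agent.P153.R2.F2 (Cx fre frb rfm fre_dat frb_dat fre_ne frb_ne cmp_frb Cx_finite Cx_out
  dat_exa mono_ind exa_in exa_out bx_finite)

variable {V W B : Set Pt} {η : Hg} {m a : ℤ} {d : ℤ}

/-- A macroscopic piece of `{h ≥ a}` in `W`. -/
def Hi (d a : ℤ) (W : Set Pt) : Set Hg := {g | Big d ({x | a ≤ g x} ∩ W)}

theorem Hi_upper (d a : ℤ) (W : Set Pt) : IsUpperSet (Hi d a W) := fun g h hgh hg =>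
  Big.mono (Set.inter_subset_inter_left _ fun x hx => le_trans (show a ≤ g x from hx) (hgh x)) hg

theorem Hi_mono {d a : ℤ} {W W' : Set Pt} (h : W ⊆ W') : Hi d a W ⊆ Hi d a W' := fun _ hg =>
  Big.mono (Set.inter_subset_inter_right _ h) hg

theorem Hi_anti {d a a' : ℤ} {W : Set Pt} (h : a' ≤ a) : Hi d a W ⊆ Hi d a' W := fun _ hg =>
  Big.mono (Set.inter_subset_inter_left _ fun _ hx => h.trans hx) hg

theorem Hi_congr {d a : ℤ} {W : Set Pt} {g h : Hg} (hgh : ∀ x ∈ W, g x = h x) :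
    g ∈ Hi d a W ↔ h ∈ Hi d a W := by
  have : {x | a ≤ g x} ∩ W = {x | a ≤ h x} ∩ W := by
    ext x
    constructor
    · rintro ⟨h1, h2⟩
      refine ⟨?_, h2⟩
      have h1' : a ≤ g x := h1
      rw [hgh x h2] at h1'
      exact h1'
    · rintro ⟨h1, h2⟩
      refine ⟨?_, h2⟩
      have h1' : a ≤ h x := h1
      rw [← hgh x h2] at h1'
      exact h1'
  unfold Hi
  rw [Set.mem_ofPred_eq, Set.mem_ofPred_eq, this]

theorem exa_le_fre (hV : V.Finite) (hm : Even m) (hne : (Cx V η).Nonempty)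
    (hη : ∀ x ∈ ebd V, η x ≤ m - 1) {E : Set Hg} (hE : IsUpperSet E) :
    Pr (Cx V η) E ≤ Pr (Cfg V (fre V η m)) E := by
  have hodd : ∀ x, x ∉ nb V → Odd (η x) := by
    obtain ⟨h, hh⟩ := hne
    intro x hx
    rw [← Cx_out hh (fun h' => hx (Or.inl h'))]
    exact hh.1 x
  rw [Pr_eq_Ex (Cfg_finite (fre_dat hV)), Pr_eq_Ex (Cx_finite hV _)]
  refine Cfg_le (dat_exa hV η) (fre_dat hV) hne (fre_ne hm hodd) (fun x => ?_) _ (mono_ind hE)
  intro b hb c hc
  unfold fre at hc ⊢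
  by_cases h1 : x ∈ V
  · rw [if_pos h1, exa_in h1]
    exact ⟨mem_univ _, mem_univ _⟩
  · rw [exa_out h1, mem_singleton_iff] at hb
    rw [exa_out h1]
    by_cases h2 : x ∈ ebd V
    · rw [if_neg h1, if_pos h2] at hc ⊢
      have h3 := hη x h2
      have h4 : b ≤ c := by
        simp only [mem_insert_iff, mem_singleton_iff] at hc
        omega
      rw [min_eq_left h4, max_eq_right h4]
      exact ⟨hb, hc⟩
    · rw [if_neg h1, if_neg h2, mem_singleton_iff] at hc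
      rw [if_neg h1, if_neg h2, hb, hc, min_self, max_self]
      exact ⟨mem_singleton _, mem_singleton _⟩

/-- Macroscopic pieces of the modulus. -/
def Ha (d a m : ℤ) (W : Set Pt) : Set Hg := {g | Big d ({x | a ≤ |g x - m|} ∩ W)}

/-- The modulus at level `m` is larger in the larger domain. -/
theorem fre_ha_le (hB : B.Finite) (hWB : W ⊆ B) (hm : Even m) (hne : (Cfg W (fre W η m)).Nonempty) :
    Pr (Cfg W (fre W η m)) (Ha d a m W) ≤ Pr (Cfg B (frd B m)) (Ha d a m B) := by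
  have hWf : W.Finite := hB.subset hWB
  set A : Set Hg := {u | Big d ({x | a ≤ u x} ∩ W)} with hA
  have hAu : IsUpperSet A := fun g h hgh hg =>
    Big.mono (Set.inter_subset_inter_left _ fun x hx => le_trans (show a ≤ g x from hx) (hgh x)) hg
  have hloc : ∀ g h : Hg, (∀ x ∈ nb W, g x = h x) → ind (Ha d a m W) g = ind (Ha d a m W) h := by
    intro g h hgh
    have e : {x | a ≤ |g x - m|} ∩ W = {x | a ≤ |h x - m|} ∩ W := by
      ext x
      constructor
      · rintro ⟨h1, h2⟩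
        have h1' : a ≤ |g x - m| := h1
        rw [hgh x (Or.inl h2)] at h1'
        exact ⟨h1', h2⟩
      · rintro ⟨h1, h2⟩
        have h1' : a ≤ |h x - m| := h1
        rw [← hgh x (Or.inl h2)] at h1'
        exact ⟨h1', h2⟩
    have : g ∈ Ha d a m W ↔ h ∈ Ha d a m W := by
      unfold Ha
      rw [Set.mem_ofPred_eq, Set.mem_ofPred_eq, e]
    unfold ind
    by_cases h0 : g ∈ Ha d a m W
    · rw [if_pos h0, if_pos (this.1 h0)]
    · rw [if_neg h0, if_neg fun h' => h0 (this.2 h')]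
  set ζ : Hg := fun _ => m + 1 with hζ
  have hodd : ∀ U : Set Pt, ∀ x, x ∉ nb U → Odd (ζ x) := fun _ _ _ => hm.add_one
  have e0 : ∀ U : Set Pt, fre U ζ m = frd U m := fun U => rfl
  -- the data off `nb W`
  have e1 : Pr (Cfg W (fre W η m)) (Ha d a m W) = Pr (Cfg W (frd W m)) (Ha d a m W) := by
    rw [← e0, Pr_eq_Ex (Cfg_finite (fre_dat hWf)), Pr_eq_Ex (Cfg_finite (fre_dat hWf))]
    refine Ex_off (fre_dat hWf) (fre_dat hWf) (fun x hx => ?_) hne (fre_ne hm (hodd W)) hloc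
    unfold fre
    rcases hx with hx | hx
    · rw [if_pos hx, if_pos hx]
    · rw [if_neg hx.1, if_pos hx, if_neg hx.1, if_pos hx]
  have e2 : Pr (Cfg B (frb B W ζ m)) (Ha d a m W) = Pr (Cfg W (frd W m)) (Ha d a m W) := by
    rw [← e0 W, Pr_eq_Ex (Cfg_finite (fre_dat hWf)), Pr_eq_Ex (Cfg_finite (frb_dat hB hWB)), e0 W]
    refine Ex_box (V := B) (I := frb B W ζ m) hWB (frb_dat hB hWB) hm
      (fun x hx => by unfold frb; rw [if_pos hx]) (fun x hx hxB => by
        unfold frb; rw [if_neg hxB, if_pos hx]) (frb_ne hWB hm (hodd B)) hloc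
  rw [e1, ← e2, ← e0 B]
  refine (md_Pr_mono0 (cmp_frb hB hWB hm (hodd B)) hAu).trans (Pr_mono fun g _ hg => ?_)
  exact Big.mono (Set.inter_subset_inter_right _ hWB) hg

/-- Macroscopic pieces of the modulus have one sign. -/
theorem ha_le_hi (hB : B.Finite) (ha : 2 ≤ a) :
    Pr (Cfg B (frd B m)) (Ha d a m B) ≤ 2 * Pr (Cfg B (frd B m)) (Hi d (m + a) B) := by
  set ζ : Hg := fun _ => m + 1 with hζ
  have e0 : fre B ζ m = frd B m := rfl
  set Lo : Set Hg := {g | Big d ({x | g x ≤ m - a} ∩ B)} with hLo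
  have h1 : Pr (Cfg B (frd B m)) (Ha d a m B) ≤ Pr (Cfg B (frd B m)) (Hi d (m + a) B ∪ Lo) := by
    refine Pr_mono fun g hg hgA => ?_
    obtain ⟨x, y, hxy, hd⟩ := hgA
    have hx : a ≤ |g x - m| := hxy.left_mem.1
    rcases le_or_gt m (g x) with h2 | h2
    · left
      refine ⟨x, y, ?_, hd⟩
      rw [abs_of_nonneg (by omega)] at hx
      refine hxy.ind (fun z => Conn ({x | m + a ≤ g x} ∩ B) x z) (Conn.refl
        ⟨show m + a ≤ g x by omega, hxy.left_mem.2⟩) ?_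
      intro u v _ huv hv ih
      refine ih.tail huv ⟨?_, hv.2⟩
      have h3 : m + a ≤ g u := ih.right_mem.1
      have h4 : a ≤ |g v - m| := hv.1
      have h5 := abs_le.1 (hg.2.2 u ih.right_mem.2 v huv)
      show m + a ≤ g v
      rcases le_abs.1 h4 with h6 | h6 <;> omega
    · right
      refine ⟨x, y, ?_, hd⟩
      rw [abs_of_neg (by omega)] at hx
      refine hxy.ind (fun z => Conn ({x | g x ≤ m - a} ∩ B) x z) (Conn.refl
        ⟨show g x ≤ m - a by omega, hxy.left_mem.2⟩) ?_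
      intro u v _ huv hv ih
      refine ih.tail huv ⟨?_, hv.2⟩
      have h3 : g u ≤ m - a := ih.right_mem.1
      have h4 : a ≤ |g v - m| := hv.1
      have h5 := abs_le.1 (hg.2.2 u ih.right_mem.2 v huv)
      show g v ≤ m - a
      rcases le_abs.1 h4 with h6 | h6 <;> omega
  have h2 : Pr (Cfg B (frd B m)) Lo ≤ Pr (Cfg B (frd B m)) (Hi d (m + a) B) := by
    rw [← e0, F2.Pr_rfm hB]
    refine Pr_mono fun g _ hg => ?_
    have hg' : Big d ({x | rfm B m g x ≤ m - a} ∩ B) := hg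
    refine Big.mono ?_ hg'
    rintro x ⟨h3, h4⟩
    refine ⟨?_, h4⟩
    have h5 : rfm B m g x ≤ m - a := h3
    unfold F2.rfm at h5
    rw [if_pos (show x ∈ nb B from Or.inl h4)] at h5
    show m + a ≤ g x
    omega
  have h3 := Pr_union_le (Cfg B (frd B m)) (Hi d (m + a) B) Lo
  linarith

/-! ### Translations -/

/-- Translated set. -/
def tr (v : Pt) (V : Set Pt) : Set Pt := {x | x - v ∈ V}

theorem ebd_tr {v x : Pt} : x ∈ ebd (tr v V) ↔ x - v ∈ ebd V := by
  constructor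
  · rintro ⟨h1, y, hy, hyx⟩
    refine ⟨h1, y - v, hy, ?_⟩
    have := F2.adj_add (-v) hyx
    rwa [← sub_eq_add_neg, ← sub_eq_add_neg] at this
  · rintro ⟨h1, y, hy, hyx⟩
    refine ⟨h1, y + v, ?_, ?_⟩
    · show y + v - v ∈ V
      rwa [add_sub_cancel_right]
    · have := F2.adj_add v hyx
      rwa [sub_add_cancel] at this

theorem frd_tr (v x : Pt) : frd (tr v V) m x = frd V m (x - v) := by
  unfold frd
  by_cases h1 : x - v ∈ V
  · rw [if_pos (show x ∈ tr v V from h1), if_pos h1]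
  · by_cases h2 : x - v ∈ ebd V
    · rw [if_neg (show x ∉ tr v V from h1), if_pos (ebd_tr.2 h2), if_neg h1, if_pos h2]
    · rw [if_neg (show x ∉ tr v V from h1), if_neg fun h => h2 (ebd_tr.1 h), if_neg h1, if_neg h2]

theorem mem_tr {v : Pt} {h : Hg} (hh : h ∈ Cfg V (frd V m)) :
    (fun x => h (x - v)) ∈ Cfg (tr v V) (frd (tr v V) m) := by
  refine ⟨fun x => hh.1 _, fun x => ?_, fun x hx y hxy => ?_⟩
  · rw [frd_tr]
    exact hh.2.1 _
  · refine hh.2.2 (x - v) hx (y - v) ?_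
    have := F2.adj_add (-v) hxy
    rwa [← sub_eq_add_neg, ← sub_eq_add_neg] at this

theorem tr_tr (v : Pt) : tr (-v) (tr v V) = V := by
  ext x
  show x - -v - v ∈ V ↔ x ∈ V
  rw [sub_neg_eq_add, add_sub_cancel_right]

theorem tr_bij (v : Pt) : BijOn (fun (h : Hg) x => h (x - v)) (Cfg V (frd V m))
    (Cfg (tr v V) (frd (tr v V) m)) := by
  refine ⟨fun h hh => mem_tr hh, fun h _ g _ hgh => ?_, fun h hh => ?_⟩
  · funext x
    have := congrFun hgh (x + v)
    simpa only [add_sub_cancel_right] using this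
  · have h1 := mem_tr (v := -v) hh
    rw [tr_tr] at h1
    refine ⟨_, h1, ?_⟩
    funext x
    simp only [sub_neg_eq_add, sub_add_cancel]

theorem Pr_tr (hV : V.Finite) (v : Pt) (E : Set Hg) : Pr (Cfg (tr v V) (frd (tr v V) m)) E =
    Pr (Cfg V (frd V m)) {h | (fun x => h (x - v)) ∈ E} := by
  have f1 : (Cfg V (frd V m)).Finite := Cfg_finite (NH.dat_frd hV m)
  have f2 : (Cfg (tr v V) (frd (tr v V) m)).Finite := by
    rw [← (tr_bij v).image_eq]
    exact f1.image _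
  rw [Pr_eq_Ex f2, Pr_eq_Ex f1, Ex_bij _ (tr_bij v)]
  rfl

theorem bx_tr (p : Pt) (r : ℤ) : bx p r = tr p (bx 0 r) := by
  ext x
  show _ ↔ x - p ∈ bx 0 r
  unfold bx
  simp only [Set.mem_ofPred_eq, Prod.fst_sub, Prod.snd_sub, Prod.fst_zero, Prod.snd_zero, sub_zero]

/-- **Macroscopic high pieces**, exact data bounded above, arbitrary domains. -/
theorem cx_hi {P : Measure (Pt → ℤ)} (hP : GFF.Plane P) (hint : S_int P) (hpos : S_pos P)
    (hrsw : S_rsw P) (N : ℕ) : ∃ q : ℝ, 0 ≤ q ∧ q < 1 ∧ ∃ s₀ : ℤ, 1 ≤ s₀ ∧ ∀ s, s₀ ≤ s →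
      ∀ (n : ℕ) (p : Pt) (W : Set Pt) (ξ : Hg) (m : ℤ), W ⊆ bx p (N * s) → Even m →
        (Cx W ξ).Nonempty → (∀ y ∈ ebd W, ξ y ≤ m - 1) →
        Pr (Cx W ξ) (Hi (4 * s) (m + (4 * n + 2)) W) ≤ 2 * q ^ (n + 1) := by
  obtain ⟨q, hq0, hq1, s₀, hs₀, hb⟩ := nh_box hP hint hpos hrsw N
  refine ⟨q, hq0, hq1, s₀, hs₀, fun s hs n p W ξ m hW hm hne hξ => ?_⟩
  have hBf : (bx p (N * s)).Finite := bx_finite _ _
  have hWf : W.Finite := hBf.subset hW
  have hodd : ∀ x, x ∉ nb W → Odd (ξ x) := by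
    obtain ⟨h, hh⟩ := hne
    intro x hx
    rw [← Cx_out hh (fun h' => hx (Or.inl h'))]
    exact hh.1 x
  have k1 := exa_le_fre hWf hm hne hξ (Hi_upper (4 * s) (m + (4 * n + 2)) W)
  have k2 : Pr (Cfg W (fre W ξ m)) (Hi (4 * s) (m + (4 * n + 2)) W) ≤
      Pr (Cfg W (fre W ξ m)) (Ha (4 * s) (4 * n + 2) m W) := Pr_mono fun g _ hg =>
    Big.mono (Set.inter_subset_inter_left _ fun x hx => by
      have h1 : m + (4 * (n : ℤ) + 2) ≤ g x := hx
      show 4 * (n : ℤ) + 2 ≤ |g x - m|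
      exact le_trans (by omega) (le_abs_self _)) hg
  have k3 := fre_ha_le (d := 4 * s) (a := 4 * n + 2) (η := ξ) hBf hW hm (fre_ne hm hodd)
  have k4 := ha_le_hi (m := m) (d := 4 * s) (a := 4 * n + 2) hBf (by omega)
  have k5 : Pr (Cfg (bx p (N * s)) (frd (bx p (N * s)) m)) (Hi (4 * s) (m + (4 * n + 2))
      (bx p (N * s))) ≤ q ^ (n + 1) := by
    rw [F2.Pr_shift hBf hm, bx_tr p, Pr_tr (bx_finite 0 _)]
    refine (Pr_mono fun h hh hhE => ?_).trans (hb s hs n (bx 0 (N * s)) (bx_finite _ _)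
      (fun x y hx hy => F2.cc_bx 0 _ hx hy) Subset.rfl)
    have h1 : Big (4 * s) ({x | m + (4 * (n : ℤ) + 2) ≤ h (x - p) + m} ∩ tr p (bx 0 (N * s))) :=
      hhE
    obtain ⟨x, y, hxy, hd⟩ := h1
    have h2 : Conn (UU (bx 0 (N * s)) h (4 * n + 1)) (x + -p) (y + -p) := by
      refine F2.conn_add (-p) (fun z hz => ?_) hxy
      rw [← sub_eq_add_neg]
      have h3 : m + (4 * (n : ℤ) + 2) ≤ h (z - p) + m := hz.1
      exact mem_UU_of_lt hz.2 (by omega)
    refine ⟨_, _, h2, ?_⟩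
    simp only [Prod.fst_add, Prod.snd_add, add_sub_add_right_eq_sub]
    exact hd
  linarith

end Vale.Agent.P153.R2.SDB
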