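import Vale.Agent.P153.R2.F2A.LowerT
import Vale.Agent.P153.R2.SDAD.UnifJ
import Vale.Agent.P153.R2.SDAR.Stmt

/-!
# P153-R2, block SDB: elementary inputs of the assembly

* `exists_test`: a test function with integral one in an open set.
* `nu_pos`: the free probability of `h = η` on `S` is positive.
* `Sh_mono_L`, `Sh_loc`: the shields.
-/

set_option autoImplicit false

namespace Vale.Agent.P153.R2.SDB

open Set MeasureTheory
open Vale.Agent.P145.PT (TestOn)
open Vale.Agent.P153 Vale.Agent.P153.R2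
open Vale.Agent.P153.Topo (Conn)
open Vale.Agent.P153.R2.F2 (Cx thk NoCr bx_finite)
open Vale.Agent.P153.R2.F2A (evS Sh nu)

/-- A test function with integral one in an open set. -/
theorem exists_test {O : Set (ℝ × ℝ)} (hO : IsOpen O) {z : ℝ × ℝ} (hz : z ∈ O) :
    ∃ ρ : ℝ × ℝ → ℝ, TestOn O ρ ∧ ∫ x, ρ x = 1 := by
  obtain ⟨r, hr, hrO⟩ := Metric.isOpen_iff.1 hO z hz
  let b : ContDiffBump z := ⟨r / 4, r / 2, by positivity, by linarith⟩
  have h0 : 0 < ∫ x, b x := b.integral_pos
  refine ⟨fun x => (∫ y, b y)⁻¹ * b x, ⟨contDiff_const.mul b.contDiff,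
    b.hasCompactSupport.mul_left, ?_⟩, ?_⟩
  · refine (tsupport_mul_subset_right (f := fun _ => (∫ y, b y)⁻¹) (g := b)).trans ?_
    rw [b.tsupport_eq]
    refine (Metric.closedBall_subset_ball ?_).trans hrO
    show r / 2 < r
    linarith
  · rw [integral_const_mul, inv_mul_cancel₀ h0.ne']

/-! ### Positivity of the free probabilities -/

/-- The sup distance of two vertices. -/
def sd (x y : Pt) : ℤ := max |x.1 - y.1| |x.2 - y.2|

theorem sd_adj {x y z : Pt} (h : Adj x y) : sd x z ≤ sd y z + 1 := by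
  have h1 := Topo.adj_iff.1 h
  have h2 : |x.1 - y.1| ≤ 1 ∧ |x.2 - y.2| ≤ 1 := by
    constructor <;> rw [abs_le] <;> omega
  have h3 := abs_sub_le x.1 y.1 z.1
  have h4 := abs_sub_le x.2 y.2 z.2
  have h5 : |y.1 - z.1| ≤ sd y z := le_max_left _ _
  have h6 : |y.2 - z.2| ≤ sd y z := le_max_right _ _
  show max |x.1 - z.1| |x.2 - z.2| ≤ sd y z + 1
  rw [max_le_iff]
  constructor
  · exact h3.trans (by linarith [h2.1])
  · exact h4.trans (by linarith [h2.2])

/-- The free probability of `h = η` on `S` is positive. -/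
theorem nu_pos {S : Set Pt} (hSf : S.Finite) (hne : S.Nonempty) {η : Hg} (hη : Lip η) {M : ℕ}
    (hM : ∀ x ∈ S, |η x| ≤ 2 * M + 1) {r : ℤ} (hr : (M : ℤ) ≤ r) : 0 < nu (thk S r) S η := by
  classical
  set T : Finset Pt := hSf.toFinset with hT
  have hTne : T.Nonempty := by rw [hT, Set.Finite.toFinset_nonempty]; exact hne
  have hmem : ∀ x, x ∈ T ↔ x ∈ S := fun x => by rw [hT, Set.Finite.mem_toFinset]
  -- the distance to `S`
  set d : Pt → ℤ := fun x => T.inf' hTne fun z => sd x z with hd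
  have hd0 : ∀ x, 0 ≤ d x := fun x => by
    rw [hd]
    refine (Finset.le_inf'_iff _ _).2 fun z _ => ?_
    exact (abs_nonneg _).trans (le_max_left _ _)
  have hdS : ∀ x ∈ S, d x ≤ 0 := fun x hx => by
    refine (Finset.inf'_le (fun z => sd x z) ((hmem x).2 hx)).trans ?_
    simp [sd]
  have hdadj : ∀ x y, Adj x y → d x ≤ d y + 1 := fun x y hxy => by
    obtain ⟨z, hz, hz2⟩ := Finset.exists_mem_eq_inf' hTne fun z => sd y z
    have h1 : d y = sd y z := hz2
    rw [h1]
    exact (Finset.inf'_le (fun z => sd x z) hz).trans (sd_adj hxy)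
  have hdthk : ∀ x, x ∉ thk S r → r + 1 ≤ d x := fun x hx => by
    obtain ⟨z, hz, hz2⟩ := Finset.exists_mem_eq_inf' hTne fun z => sd x z
    have h1 : d x = sd x z := hz2
    rw [h1]
    by_contra hcon
    push Not at hcon
    apply hx
    refine ⟨z, (hmem z).1 hz, ?_, ?_⟩
    · have : |x.1 - z.1| ≤ sd x z := le_max_left _ _
      omega
    · have : |x.2 - z.2| ≤ sd x z := le_max_right _ _
      omega
  -- the tapered configuration
  set w : Pt → ℤ := fun x => max 1 (2 * M + 1 - 2 * d x) with hw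
  have hw1 : ∀ x, 1 ≤ w x := fun x => le_max_left _ _
  have hwodd : ∀ x, Odd (w x) := fun x => by
    show Odd (max 1 (2 * (M : ℤ) + 1 - 2 * d x))
    rcases max_choice (1 : ℤ) (2 * M + 1 - 2 * d x) with h | h
    · rw [h]; exact odd_one
    · rw [h]; exact ⟨M - d x, by ring⟩
  have hwadj : ∀ x y, Adj x y → |w x - w y| ≤ 2 := fun x y hxy => by
    have h1 := hdadj x y hxy
    have h2 := hdadj y x (Topo.adj_symm hxy)
    show |max 1 (2 * (M : ℤ) + 1 - 2 * d x) - max 1 (2 * (M : ℤ) + 1 - 2 * d y)| ≤ 2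
    rw [abs_le]
    rcases max_cases (1 : ℤ) (2 * M + 1 - 2 * d x) with ⟨h3, h4⟩ | ⟨h3, h4⟩ <;>
      rcases max_cases (1 : ℤ) (2 * M + 1 - 2 * d y) with ⟨h5, h6⟩ | ⟨h5, h6⟩ <;>
      rw [h3, h5] <;> omega
  have hwout : ∀ x, x ∉ thk S r → w x = 1 := fun x hx => by
    have := hdthk x hx
    exact max_eq_left (by omega)
  set V : Set Pt := thk S r with hV
  have hVf : V.Finite := F2A.thk_finite hSf
  set g : Hg := fun x => max (- w x) (min (w x) (η x)) with hg
  have hgodd : ∀ x, Odd (g x) := fun x => by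
    show Odd (max (- w x) (min (w x) (η x)))
    rcases max_choice (- w x) (min (w x) (η x)) with h | h
    · rw [h]; exact (hwodd x).neg
    · rw [h]
      rcases min_choice (w x) (η x) with h2 | h2
      · rw [h2]; exact hwodd x
      · rw [h2]; exact hη.1 x
  have hgadj : ∀ x y, Adj x y → |g x - g y| ≤ 2 := fun x y hxy => by
    have h1 := abs_le.1 (hwadj x y hxy)
    have h2 := abs_le.1 (hη.2 x y hxy)
    show |max (- w x) (min (w x) (η x)) - max (- w y) (min (w y) (η y))| ≤ 2
    have a1 := hw1 x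
    have a2 := hw1 y
    rw [abs_le]
    rcases max_cases (- w x) (min (w x) (η x)) with ⟨h3, h4⟩ | ⟨h3, h4⟩ <;>
      rcases max_cases (- w y) (min (w y) (η y)) with ⟨h5, h6⟩ | ⟨h5, h6⟩ <;>
      rcases min_cases (w x) (η x) with ⟨h7, h8⟩ | ⟨h7, h8⟩ <;>
      rcases min_cases (w y) (η y) with ⟨h9, h10⟩ | ⟨h9, h10⟩ <;>
      rw [h3, h5] <;> omega
  have hgS : ∀ x ∈ S, g x = η x := fun x hx => by
    have h1 := hdS x hx
    have h2 := hd0 x
    have h3 : w x = 2 * M + 1 := by
      show max 1 (2 * (M : ℤ) + 1 - 2 * d x) = _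
      rw [max_eq_right (by omega)]
      omega
    have h4 := abs_le.1 (hM x hx)
    show max (- w x) (min (w x) (η x)) = η x
    rw [h3, min_eq_right h4.2, max_eq_right (by omega)]
  set g' : Hg := fun x => if x ∈ nb V then g x else 1 with hg'
  have hg'in : ∀ x ∈ nb V, g' x = g x := fun x hx => if_pos hx
  have hmemg : g' ∈ Cfg V (frd V 0) := by
    refine ⟨fun x => ?_, fun x => ?_, fun x hx y hxy => ?_⟩
    · by_cases h1 : x ∈ nb V
      · rw [hg'in x h1]; exact hgodd x
      · rw [show g' x = 1 from if_neg h1]; exact odd_one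
    · by_cases h1 : x ∈ V
      · unfold frd; rw [if_pos h1]; exact mem_univ _
      · by_cases h2 : x ∈ ebd V
        · unfold frd
          rw [if_neg h1, if_pos h2, hg'in x (Or.inr h2)]
          have h3 := hwout x h1
          show max (- w x) (min (w x) (η x)) ∈ _
          rw [h3]
          obtain ⟨i, hi⟩ := hη.1 x
          rcases le_or_gt (η x) 0 with h4 | h4
          · left
            rw [min_eq_right (by omega), max_eq_left (by omega)]
            norm_num
          · right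
            rw [min_eq_left (by omega), max_eq_right (by omega)]
            norm_num
        · unfold frd
          rw [if_neg h1, if_neg h2, show g' x = 1 from if_neg fun h => h.elim h1 h2]
          norm_num
    · have h1 := Tr.mem_nb_of_left hx hxy
      rw [hg'in x h1.1, hg'in y h1.2]
      exact hgadj x y hxy
  have hfin : (Cfg V (frd V 0)).Finite := Cfg_finite (F2A.Dat_frd hVf 0)
  have hev : g' ∈ evS S η := fun x hx => by
    rw [hg'in x (Or.inl (F2A.sub_thk (by omega) S hx))]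
    exact hgS x hx
  unfold nu Pr
  refine div_pos ?_ ?_
  · exact_mod_cast (Set.ncard_pos (hfin.inter_of_left _)).2 ⟨g', hmemg, hev⟩
  · exact_mod_cast (Set.ncard_pos hfin).2 ⟨g', hmemg⟩

/-! ### Shields -/

theorem Sh_mono_L {L L' : ℕ} (h : L ≤ L') (S : Set Pt) (r₁ r₂ : ℤ) : Sh L S r₁ r₂ ⊆ Sh L' S r₁ r₂ := by
  intro g hg
  refine F2.NoCr.mono (fun x hx => ?_) Subset.rfl Subset.rfl hg
  have h1 : 2 * (L' : ℤ) + 3 ≤ |g x| := hx
  show 2 * (L : ℤ) + 3 ≤ |g x|
  omega

theorem Sh_loc {L : ℕ} {S : Set Pt} {r : ℤ} (hr : 1 ≤ r) {g h : Hg}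
    (hgh : ∀ x ∈ thk S (3 * r), g x = h x) (hg : g ∈ Sh L S (2 * r) (3 * r - 1)) :
    h ∈ Sh L S (2 * r) (3 * r - 1) := by
  refine F2.NoCr_local (F2A.thk_mono (by omega) S) (fun x hx hx' => ?_) hg
  have h1 : x ∈ thk S (3 * r) := by
    have := F2A.nb_thk hx
    rwa [sub_add_cancel] at this
  have h2 : 2 * (L : ℤ) + 3 ≤ |h x| := hx'
  rw [← hgh x h1] at h2
  exact h2

end Vale.Agent.P153.R2.SDB
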