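import Vale.Agent.P153.R2.GAPS.Side

/-!
P153-R2, block SDB (helper435), part 1: positive association of the absolute heights for the
measure `muT P`, and the reflection of the outside of an open cluster.
-/

namespace Vale.Agent.P153.R2.SDB

open Finset MeasureTheory Filter Topology Relation Vale.Agent.P153 Vale.Agent.P153.F
  Vale.Agent.P153.F.Gh Vale.Agent.P153.F.X Vale.Agent.P153.F.X.LE
open Vale.Agent.P153.GFF (Ht Pat hexa LocLim)
open Vale.Agent.P153.Topo (Conn)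
open Vale.Agent.P153.F (Pt)

variable {P : Measure (Pt → ℤ)}

/-- The modulus. -/
def av (h : Hg) : Hg := fun x => |h x|

section ex

variable {D : Finset Pt}

theorem av_ex1 (H : Option {x // x ∈ D} → ℤ) : av (ex1 H) = ex1 (Gh.ab H) := by
  funext x
  unfold av ex1
  by_cases h : x ∈ D
  · rw [dif_pos h, dif_pos h]; rfl
  · rw [dif_neg h, dif_neg h]; rfl

theorem ex1_mono {a a' : Option {x // x ∈ D} → ℤ} (h : a ≤ a') : ex1 a ≤ ex1 a' := by
  intro x
  unfold ex1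
  by_cases hx : x ∈ D
  · rw [dif_pos hx, dif_pos hx]; exact h _
  · rw [dif_neg hx, dif_neg hx]

theorem ex1_inf (a a' : Option {x // x ∈ D} → ℤ) : ex1 (a ⊓ a') = ex1 a ⊓ ex1 a' := by
  funext x
  rw [Pi.inf_apply]
  unfold ex1
  by_cases hx : x ∈ D
  · rw [dif_pos hx, dif_pos hx, dif_pos hx]; rfl
  · rw [dif_neg hx, dif_neg hx, dif_neg hx, inf_idem]

theorem ex1_sup (a a' : Option {x // x ∈ D} → ℤ) : ex1 (a ⊔ a') = ex1 a ⊔ ex1 a' := by
  funext x
  rw [Pi.sup_apply]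
  unfold ex1
  by_cases hx : x ∈ D
  · rw [dif_pos hx, dif_pos hx, dif_pos hx]; rfl
  · rw [dif_neg hx, dif_neg hx, dif_neg hx, sup_idem]

end ex

theorem lcl_mul {B : Finset Pt} {R : ℤ} {F G : Hg → ℝ} (hF : Lcl B R F)
    (hG : ∀ h h' : Hg, (∀ x ∈ B, h x = h' x) → G h = G h') : Lcl B R fun h => F h * G h := by
  refine ⟨fun h h' hh => ?_, fun h h1 h2 h3 => hF.bdd h h1 h2 (left_ne_zero_of_mul h3)⟩
  rw [hF.dep h h' hh, hG h h' hh]

/-- **Association of the absolute heights in the plane.** -/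
theorem fkg_plane (hP : GFF.Plane P) {B : Finset Pt} (hB : B.Nonempty) {R : ℤ}
    {X₁ X₂ Y : Hg → ℝ} (h1 : ∀ c, 0 ≤ X₁ c) (h2 : ∀ c, 0 ≤ X₂ c) (hY0 : ∀ c, 0 ≤ Y c)
    (hY : Monotone Y) (hX : ∀ a b, X₁ a * X₂ b ≤ X₁ (a ⊓ b) * X₂ (a ⊔ b))
    (l1 : Lcl B R fun h => X₁ (av h)) (l2 : Lcl B R fun h => X₂ (av h))
    (dY : ∀ h h' : Hg, (∀ x ∈ B, h x = h' x) → Y (av h) = Y (av h')) :
    (∫ h, X₁ (av h) * Y (av h) ∂(muT P)) * (∫ h, X₂ (av h) ∂(muT P)) ≤
      (∫ h, X₁ (av h) ∂(muT P)) * ∫ h, X₂ (av h) * Y (av h) ∂(muT P) := by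
  refine mul_le_lim hP hB (lcl_mul l1 dY) l2 l1 (lcl_mul l2 dY) ?_
  refine Eventually.of_forall fun n => Eventually.of_forall fun M => ?_
  have key := (gD (hexa n)).master (M := M) (D := Set.univ) (D' := Set.univ)
    (X₁ := fun a => X₁ (ex1 a)) (X₂ := fun a => X₂ (ex1 a)) subset_rfl (fun a => h1 _)
    (fun a => h2 _) (fun a _ a' _ => by
      simp only [ex1_inf, ex1_sup]
      exact hX _ _)
    (B := fun a => Y (ex1 a)) (fun a => hY0 _) (fun a a' h => hY (ex1_mono h)) []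
  have hnil : ∀ H : Option {x // x ∈ hexa n} → ℤ, mon [] H = 1 := fun _ => rfl
  simp only [hnil, mul_one] at key
  simp only [av_ex1]
  exact key

end Vale.Agent.P153.R2.SDB
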