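import Vale.Agent.P153.R2.F2A.Arm
import Vale.Agent.P153.R2.SDB.Fkg

/-!
# P153-R2, block SDB: statement of the tail estimate (helper435)

`S_tail`: under the open law (`h = η` on `S`) the shield `Sh L S (2 r) (3 r - 1)` fails with small
conditional probability, if `L` is large, uniformly in `S` and `η`.
-/

namespace Vale.Agent.P153.R2.SDB

open Set MeasureTheory
open Vale.Agent.P153 Vale.Agent.P153.R2
open Vale.Agent.P153.F (muT)
open Vale.Agent.P153.R2.F2A (evS Sh)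

/-- The tail estimate. -/
def S_tail (P : Measure (Pt → ℤ)) : Prop := ∀ (M K : ℕ) (ε : ℝ), 1 ≤ K → 0 < ε →
  ∃ (L : ℕ) (s₀ : ℤ), M ≤ L ∧ 1 ≤ s₀ ∧ ∀ r : ℤ, s₀ ≤ r → ∀ (p : Pt) (S : Set Pt) (η : Hg),
    bx p r ⊆ S → S ⊆ bx p (K * r) → (∀ x ∈ S, |η x| ≤ 2 * M + 1) →
    (muT P).real (evS S η \ Sh L S (2 * r) (3 * r - 1)) ≤ ε * (muT P).real (evS S η)

end Vale.Agent.P153.R2.SDB
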