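import Vale.Agent.P153.R2.SDB.Asm0
import Vale.Agent.P153.R2.SDB.Stmt
import Vale.Agent.P153.R2.GAPS.Gibbs

/-!
# P153-R2, block SDB: approximation of the open densities by products over the three arms
-/

set_option autoImplicit false

namespace Vale.Agent.P153.R2.SDB

open Set MeasureTheory
open Vale.Agent.P145.PT (TestOn)
open Vale.Agent.P153 Vale.Agent.P153.R2
open Vale.Agent.P153.F (muT gb_of_plane)
open Vale.Agent.P153.F.SD (PW lat)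
open Vale.Agent.P153.F.Top (dp)
open Vale.Agent.P153.F.X.LE (bL mem_bL exists_bL)
open Vale.Agent.P153.Topo (Conn)
open Vale.Agent.P153.SDAD (nbs ker ArmT ApD ApP ApproxS Lc)
open Vale.Agent.P153.R2.SDAR (gS Bd)
open Vale.Agent.P153.R2.F2 (Cx thk NoCr bx_finite)
open Vale.Agent.P153.R2.F2A (evS Sh nu Far Sh_of_union)
open Vale.Agent.P153.R2.Gp (DepS dp_dist_le exists_near exists_scale)
open scoped Classical

/-- The arm inputs, `k` does not depend on `ρ`. -/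
def S_arms (P : Measure (Pt → ℤ)) : Prop := ∀ L : ℕ, ∃ k : ℤ, 1 ≤ k ∧ ∀ ρ : ℤ,
  ∃ (C c' : ℝ) (s₁ : ℤ), 0 < C ∧ 0 < c' ∧ 1 ≤ s₁ ∧ ∀ s, s₁ ≤ s → ∀ r : ℤ, k * s ≤ r →
    3 * r ≤ ρ * s →
    (∀ (S V : Set Pt) (η ξ : Hg), S ⊆ bx 0 (ρ * s) → (∀ x ∈ S, |η x| + 2 ≤ 2 * L + 1) →
      V.Finite → thk S (3 * r) ⊆ V → (Cx V ξ).Nonempty →
      Pr (Cx V ξ) (evS S η ∩ Sh L S (2 * r) (3 * r - 1)) ≤ C * nu (thk S r) S η) ∧
    ∀ (S : Fin 3 → Set Pt) (η : Hg), (∀ i, S i ⊆ bx 0 (ρ * s)) → (∃ i, (S i).Nonempty) →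
      (∀ i, ∀ x ∈ S i, |η x| ≤ 2 * L + 1) → (∀ i j, i ≠ j → Far (6 * r) (S i) (S j)) →
      c' * ∏ i, nu (thk (S i) r) (S i) η ≤
        (muT P).real {h | ∀ i, h ∈ evS (S i) η ∩ Sh L (S i) (2 * r) (3 * r - 1)}

/-- The arms of the cell. -/
def KK (b : PW) : Fin 3 → Set (ℝ × ℝ) := ![b.K1, b.K2, b.K3]

/-- Admissible sets and data. -/
structure HS (b : PW) (D : Set (ℝ × ℝ)) (M : ℕ) (ρ : ℝ) (Q : Fin 3 → ℝ × ℝ) (δ : ℝ)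
    (S : Finset Pt) (η : Hg) : Prop where
  bd : Bd M η
  arm : ∀ x ∈ S, ∃ i, Metric.closedBall (dp δ x) ρ ⊆ KK b i
  dis : ∀ x ∈ S, Disjoint (Metric.closedBall (dp δ x) ρ) D
  cen : ∀ i, Metric.closedBall (Q i) ρ ⊆ KK b i
  inS : ∀ i, ∀ x, dp δ x ∈ Metric.closedBall (Q i) ρ → x ∈ S

theorem KK_disj {b : PW} (he : 0 < b.e) {i j : Fin 3} (hij : i ≠ j) {z : ℝ × ℝ}
    (h1 : z ∈ KK b i) (h2 : z ∈ KK b j) : False := by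
  have k1 : ∀ z ∈ b.K1, F.Top.c1 z ≤ b.x0 - b.e := fun z h => h.1
  have k2 : ∀ z ∈ b.K2, b.s0 + b.e ≤ F.Top.c1 z + F.Top.c2 z ∧ b.x0 ≤ F.Top.c1 z :=
    fun z h => ⟨h.1, h.2.1⟩
  have k3 : ∀ z ∈ b.K3, b.x0 ≤ F.Top.c1 z ∧ F.Top.c1 z + F.Top.c2 z ≤ b.s0 :=
    fun z h => ⟨h.2.1, h.2.2.1⟩
  have key : ∀ i : Fin 3, z ∈ KK b i → (i = 0 ∧ z ∈ b.K1) ∨ (i = 1 ∧ z ∈ b.K2) ∨
      (i = 2 ∧ z ∈ b.K3) := by
    intro i hi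
    fin_cases i
    · exact Or.inl ⟨rfl, hi⟩
    · exact Or.inr (Or.inl ⟨rfl, hi⟩)
    · exact Or.inr (Or.inr ⟨rfl, hi⟩)
  rcases key i h1 with ⟨e1, m1⟩ | ⟨e1, m1⟩ | ⟨e1, m1⟩ <;>
    rcases key j h2 with ⟨e2, m2⟩ | ⟨e2, m2⟩ | ⟨e2, m2⟩
  · exact hij (e1.trans e2.symm)
  · linarith [k1 z m1, (k2 z m2).2]
  · linarith [k1 z m1, (k3 z m2).1]
  · linarith [k1 z m2, (k2 z m1).2]
  · exact hij (e1.trans e2.symm)
  · linarith [(k2 z m1).1, (k3 z m2).2]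
  · linarith [k1 z m2, (k3 z m1).1]
  · linarith [(k2 z m2).1, (k3 z m1).2]
  · exact hij (e1.trans e2.symm)

theorem KK_bdd {b : PW} {i : Fin 3} {z : ℝ × ℝ} (h : z ∈ KK b i) :
    |F.Top.c1 z| ≤ b.R ∧ |F.Top.c2 z| ≤ b.R := by
  have k1 : ∀ z ∈ b.K1, |F.Top.c1 z| ≤ b.R ∧ |F.Top.c2 z| ≤ b.R := fun z h => h.2
  have k2 : ∀ z ∈ b.K2, |F.Top.c1 z| ≤ b.R ∧ |F.Top.c2 z| ≤ b.R := fun z h => h.2.2
  have k3 : ∀ z ∈ b.K3, |F.Top.c1 z| ≤ b.R ∧ |F.Top.c2 z| ≤ b.R := fun z h => h.2.2.2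
  fin_cases i
  · exact k1 z h
  · exact k2 z h
  · exact k3 z h

theorem dp_smul (δ : ℝ) (x : Pt) : dp δ x = δ • GFF.pos x := by
  unfold dp GFF.pos
  rw [Prod.smul_mk]
  simp only [smul_eq_mul]
  congr 1
  ring

theorem c1_dp (δ : ℝ) (x : Pt) : F.Top.c1 (dp δ x) = δ * x.1 := by
  rw [dp_smul]; exact F.SD.c1_pos δ x

theorem c2_dp (δ : ℝ) (x : Pt) : F.Top.c2 (dp δ x) = δ * x.2 := by
  rw [dp_smul]; exact F.SD.c2_pos δ x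

theorem gS_eq_ind (S : Finset Pt) (η h : Hg) : gS S η h = ind (evS (S : Set Pt) η) h := by
  unfold gS ind
  by_cases h1 : ∀ x ∈ S, h x = η x
  · rw [if_pos h1, if_pos (show h ∈ evS (S : Set Pt) η from h1)]
  · rw [if_neg h1, if_neg (show h ∉ evS (S : Set Pt) η from h1)]

/-- Local events. -/
theorem ind_lc {A : Finset Pt} {E : Set Hg} (h : ∀ g g' : Hg, (∀ x ∈ A, g x = g' x) → g ∈ E →
    g' ∈ E) : Lc (A : Set Pt) (ind E) := by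
  refine ⟨A, fun x hx => hx, fun g g' hgg' => ?_⟩
  unfold ind
  by_cases h1 : g ∈ E
  · rw [if_pos h1, if_pos (h g g' hgg' h1)]
  · rw [if_neg h1, if_neg fun h2 => h1 (h g' g (fun x hx => (hgg' x hx).symm) h2)]

end Vale.Agent.P153.R2.SDB
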