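import Vale.Agent.P153.R2.SDB.Asm1

/-!
# P153-R2, block SDB: the open densities are approximated by products over the three arms
-/

set_option autoImplicit false

namespace Vale.Agent.P153.R2.SDB

open Set MeasureTheory
open Vale.Agent.P145.PT (TestOn)
open Vale.Agent.P153 Vale.Agent.P153.R2
open Vale.Agent.P153.F (muT gb_of_plane)
open Vale.Agent.P153.F.SD (PW lat)
open Vale.Agent.P153.F.Top (dp)
open Vale.Agent.P153.F.X.LE (bL mem_bL exists_bL)
open Vale.Agent.P153.Topo (Conn)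
open Vale.Agent.P153.SDAD (nbs ker ArmT ApD ApP ApproxS Lc)
open Vale.Agent.P153.R2.SDAR (gS Bd)
open Vale.Agent.P153.R2.F2 (Cx thk NoCr bx_finite)
open Vale.Agent.P153.R2.F2A (evS Sh nu Far Sh_of_union)
open Vale.Agent.P153.R2.Gp (DepS dp_dist_le exists_near exists_scale)
open scoped Classical

variable {P : Measure (Pt → ℤ)}

/-- The part of `S` in the arm `i`. -/
def Si (b : PW) (ρ δ : ℝ) (S : Finset Pt) (i : Fin 3) : Set Pt :=
  {x | x ∈ S ∧ Metric.closedBall (dp δ x) ρ ⊆ KK b i}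

theorem nbs_thk {A : Finset Pt} {S : Set Pt} {r : ℤ} (hA : (A : Set Pt) = thk S r) {x : Pt}
    (hx : x ∈ nbs A) : x ∈ thk S (r + 1) := by
  rcases Finset.mem_union.1 hx with h | h
  · have h1 : x ∈ thk S r := by rw [← hA]; exact h
    exact F2A.thk_mono (by omega) S h1
  · obtain ⟨y, hy, hxy⟩ := Finset.mem_biUnion.1 h
    have h1 : y ∈ thk S r := by rw [← hA]; exact hy
    obtain ⟨z, hz, h2, h3⟩ := h1
    simp only [SDAD.nb, Finset.mem_insert, Finset.mem_singleton] at hxy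
    refine ⟨z, hz, ?_, ?_⟩
    · rw [abs_le] at h2 ⊢
      rcases hxy with h | h | h | h | h | h <;> rw [h] <;> simp only <;> omega
    · rw [abs_le] at h3 ⊢
      rcases hxy with h | h | h | h | h | h <;> rw [h] <;> simp only <;> omega

theorem approx (hP : GFF.Plane P) (hT : S_tail P) (hA : S_arms P) {b : PW} (he : 0 < b.e)
    (D : Set (ℝ × ℝ)) (M : ℕ) {ρ : ℝ} (hρ : 0 < ρ) (Q : Fin 3 → ℝ × ℝ) {ε : ℝ} (hε : 0 < ε) :
    ∃ C c0 ds : ℝ, 0 < C ∧ 0 < c0 ∧ 0 < ds ∧ ∀ δ : ℝ, 0 < δ → δ ≤ ds → ∀ (S : Finset Pt)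
      (η : Hg), HS b D M ρ Q δ S η → ∀ b' : PW, b.K1 ⊆ b'.K1 → b.K2 ⊆ b'.K2 → b.K3 ⊆ b'.K3 →
        ApproxS P δ b' D (gS S η) C c0 ε := by
  set Rb : ℝ := |b.R| + 1 with hRb
  have hRb0 : 0 < Rb := by positivity
  set K₀ : ℕ := ⌈48 * Rb / ρ⌉₊ with hK₀
  have hK₀' : 48 * Rb / ρ ≤ K₀ := Nat.le_ceil _
  have hK₀1 : 1 ≤ K₀ := Nat.one_le_ceil_iff.2 (by positivity)
  obtain ⟨L, s_t, hML, hst, hT1⟩ := hT (M + 1) (2 * K₀) ε (by omega) hε
  obtain ⟨k, hk, hA1⟩ := hA L
  set ρ' : ℤ := 2 * k * (K₀ + 3) with hρ'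
  obtain ⟨C₁, c', s₁, hC₁, hc', hs₁, hA2⟩ := hA1 ρ'
  set r₀ : ℤ := s_t + k * s₁ + M + 1 with hr₀
  have hks : 0 ≤ k * s₁ := by positivity
  refine ⟨C₁, c', ρ / (24 * (r₀ + 1)), hC₁, hc', ?_, fun δ hδ hδs S η hS b' hb1 hb2 hb3 => ?_⟩
  · have : (0 : ℝ) < r₀ + 1 := by
      have : (0 : ℤ) < r₀ + 1 := by omega
      exact_mod_cast this
    positivity
  obtain ⟨r, hr, hr1, hr2⟩ := exists_scale hρ r₀ (by omega) hδ hδs
  have hr0 : 1 ≤ r := by omega
  have hrR : (1 : ℝ) ≤ r := by exact_mod_cast hr0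
  have hrM : (M : ℤ) ≤ r := by omega
  have hδρ : δ ≤ ρ / 24 := by
    have : 24 * (δ * 1) ≤ 24 * (δ * r) := by gcongr
    linarith
  set s : ℤ := r / k with hs
  have hkpos : 0 < k := by omega
  have hks1 : k * s ≤ r := Int.mul_ediv_self_le hkpos.ne'
  have hks2 : r < k * s + k := by
    have := Int.lt_mul_ediv_self_add (x := r) hkpos
    exact this
  have hss : s₁ ≤ s := by
    rw [hs, Int.le_ediv_iff_mul_le hkpos]
    rw [mul_comm]
    omega
  have hs1 : 1 ≤ s := hs₁.trans hss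
  have hrs : r ≤ 2 * k * s := by nlinarith
  have h3r : 3 * r ≤ ρ' * s := by
    rw [hρ']
    have h1 : (0 : ℤ) ≤ K₀ := by positivity
    have h2 : 0 ≤ 2 * k * s := by positivity
    nlinarith
  have hK0r : (K₀ : ℤ) * r ≤ ρ' * s := by
    rw [hρ']
    have h1 : (0 : ℤ) ≤ K₀ := by positivity
    have h2 : 0 ≤ 2 * k * s := by positivity
    nlinarith
  -- the arms
  set T : Fin 3 → Set Pt := Si b ρ δ S with hTd
  have hTS : ∀ i, T i ⊆ (S : Set Pt) := fun i x hx => hx.1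
  have hTU : (⋃ i, T i) = (S : Set Pt) := by
    ext x
    rw [Set.mem_iUnion]
    constructor
    · rintro ⟨i, hi⟩
      exact hi.1
    · intro hx
      obtain ⟨i, hi⟩ := hS.arm x hx
      exact ⟨i, hx, hi⟩
  have hTf : ∀ i, (T i).Finite := fun i => S.finite_toSet.subset (hTS i)
  have hself : ∀ x : Pt, dp δ x ∈ Metric.closedBall (dp δ x) ρ := fun x =>
    Metric.mem_closedBall_self hρ.le
  have hloc : ∀ x ∈ S, |x.1| ≤ K₀ * r ∧ |x.2| ≤ K₀ * r := by
    intro x hx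
    obtain ⟨i, hi⟩ := hS.arm x hx
    obtain ⟨h1, h2⟩ := KK_bdd (hi (hself x))
    rw [c1_dp, abs_mul, abs_of_pos hδ] at h1
    rw [c2_dp, abs_mul, abs_of_pos hδ] at h2
    have h3 : b.R ≤ Rb := (le_abs_self _).trans (by rw [hRb]; linarith)
    have h4 : 48 * Rb ≤ K₀ * ρ := by rwa [div_le_iff₀ hρ] at hK₀'
    have h5 : (K₀ : ℝ) * ρ ≤ K₀ * (48 * (δ * r)) := mul_le_mul_of_nonneg_left hr2 (by positivity)
    have h6 : Rb ≤ δ * (K₀ * r) := by nlinarith
    constructor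
    · have : |(x.1 : ℝ)| ≤ K₀ * r := by
        refine le_of_mul_le_mul_left ?_ hδ
        linarith
      exact_mod_cast this
    · have : |(x.2 : ℝ)| ≤ K₀ * r := by
        refine le_of_mul_le_mul_left ?_ hδ
        linarith
      exact_mod_cast this
  have hTb : ∀ i, T i ⊆ bx 0 (ρ' * s) := fun i x hx => by
    obtain ⟨h1, h2⟩ := hloc x (hTS i hx)
    refine ⟨?_, ?_⟩
    · show |x.1 - 0| ≤ _
      rw [sub_zero]
      omega
    · show |x.2 - 0| ≤ _
      rw [sub_zero]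
      omega
  have hηS : ∀ x, |η x| ≤ 2 * M + 1 := hS.bd.2
  have hML' : (M : ℤ) + 1 ≤ L := by exact_mod_cast hML
  -- distances
  have hball : ∀ (x z : Pt) (d : ℤ), 0 ≤ d → |x.1 - z.1| ≤ d → |x.2 - z.2| ≤ d → d ≤ 6 * r →
      dp δ x ∈ Metric.closedBall (dp δ z) ρ := by
    intro x z d hd h1 h2 h3
    rw [Metric.mem_closedBall]
    have h4 := dp_dist_le hδ (x := x) (p := z) (r := (d : ℝ)) (by exact_mod_cast h1)
      (by exact_mod_cast h2)
    have h5 : (d : ℝ) ≤ 6 * r := by exact_mod_cast h3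
    have h6 : δ * (d : ℝ) ≤ δ * (6 * r) := mul_le_mul_of_nonneg_left h5 hδ.le
    linarith
  have hfar : ∀ i j, i ≠ j → Far (6 * r) (T i) (T j) := by
    intro i j hij x hx y hy
    by_contra hcon
    push Not at hcon
    have h1 := hball y x (6 * r) (by omega) (by rw [abs_sub_comm]; exact hcon.1)
      (by rw [abs_sub_comm]; exact hcon.2) le_rfl
    exact KK_disj he hij (hx.2 h1) (hy.2 (hself y))
  have hKb : ∀ i z, z ∈ KK b i → z ∈ KK b' i := by
    intro i z hz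
    fin_cases i
    · exact hb1 hz
    · exact hb2 hz
    · exact hb3 hz
  -- centres
  have hcen : ∀ i, ∃ p, p ∈ T i ∧ bx p r ⊆ (S : Set Pt) := by
    intro i
    obtain ⟨p, hp⟩ := exists_near hδ (Q i)
    have hsub : ∀ x ∈ bx p r, dist (dp δ x) (Q i) ≤ ρ / 2 := by
      intro x hx
      have h4 := dp_dist_le hδ (x := x) (p := p) (r := (r : ℝ)) (by exact_mod_cast hx.1)
        (by exact_mod_cast hx.2)
      have h5 := dist_triangle (dp δ x) (dp δ p) (Q i)
      linarith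
    have hbS : bx p r ⊆ (S : Set Pt) := fun x hx =>
      hS.inS i x (Metric.mem_closedBall.2 ((hsub x hx).trans (by linarith)))
    have hpb : p ∈ bx p r := ⟨by rw [sub_self, abs_zero]; omega, by rw [sub_self, abs_zero]; omega⟩
    have hpS : p ∈ S := hbS hpb
    refine ⟨p, ⟨hpS, ?_⟩, hbS⟩
    obtain ⟨j, hj⟩ := hS.arm p hpS
    have hji : j = i := by
      by_contra hne
      refine KK_disj he hne (hj (hself p)) (hS.cen i (Metric.mem_closedBall.2 ?_))
      exact (hsub p hpb).trans (by linarith)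
    rw [← hji]
    exact hj
  have hTne : ∀ i, (T i).Nonempty := fun i => by
    obtain ⟨p, hp, -⟩ := hcen i
    exact ⟨p, hp⟩
  have hthf : ∀ i, (thk (T i) (3 * r)).Finite := fun i => F2A.thk_finite (hTf i)
  set E : Fin 3 → Set Hg := fun i => evS (T i) η ∩ Sh L (T i) (2 * r) (3 * r - 1) with hE
  have hEloc : ∀ i, ∀ g h : Hg, (∀ x ∈ thk (T i) (3 * r), g x = h x) → g ∈ E i → h ∈ E i := by
    intro i g h hgh hg
    refine ⟨fun x hx => ?_, Sh_loc hr0 hgh hg.2⟩
    rw [← hgh x (F2A.sub_thk (by omega) (T i) hx)]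
    exact hg.1 x hx
  obtain ⟨harm, hlow⟩ := hA2 s hss r hks1 h3r
  have hnu : ∀ i, 0 < nu (thk (T i) r) (T i) η := fun i =>
    nu_pos (hTf i) (hTne i) hS.bd.1 (M := M) (fun x _ => hηS x) hrM
  have hArm : ∀ (i : Fin 3) (K' : Set (ℝ × ℝ)), KK b i ⊆ K' →
      ArmT δ K' D (hthf i).toFinset (ind (E i)) (nu (thk (T i) r) (T i) η) C₁ := by
    intro i K' hK'
    have hcoe : ((hthf i).toFinset : Set Pt) = thk (T i) (3 * r) := Set.Finite.coe_toFinset _
    refine ⟨fun x hx => ?_, fun x hx => ?_, ?_, fun h => by unfold ind; split_ifs <;> norm_num,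
      hnu i, fun h hh => ?_⟩
    · obtain ⟨z, hz, h1, h2⟩ := nbs_thk hcoe hx
      show δ • GFF.pos x ∈ K'
      rw [← dp_smul]
      exact hK' (hz.2 (hball x z (3 * r + 1) (by omega) h1 h2 (by omega)))
    · have hx' : x ∈ thk (T i) (3 * r) := by rw [← hcoe]; exact hx
      obtain ⟨z, hz, h1, h2⟩ := hx'
      rw [← dp_smul]
      exact fun h3 => Set.disjoint_left.1 (hS.dis z hz.1)
        (hball x z (3 * r) (by omega) h1 h2 (by omega)) h3
    · exact ind_lc fun g g' hgg' hg => hEloc i g g' (fun x hx => hgg' x (by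
        rw [← hcoe] at hx; exact hx)) hg
    · rw [Gp.ker_eq_Ex hh, hcoe]
      have h1 := harm (T i) (thk (T i) (3 * r)) η h (hTb i) (fun x _ => by
        have := hηS x
        omega) (hthf i) Subset.rfl ⟨h, (Gp.mem_cfg_exa hh).2 ⟨hh, fun _ _ => rfl⟩⟩
      rw [Pr_eq_Ex (F2.Cx_finite (hthf i) h)] at h1
      exact h1
  -- the events
  obtain ⟨p, hp, hpS⟩ := hcen 0
  have hSb : (S : Set Pt) ⊆ bx p (((2 * K₀ : ℕ) : ℤ) * r) := by
    intro x hx
    have h1 := hloc x hx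
    have h2 := hloc p (hTS 0 hp)
    obtain ⟨h3, h4⟩ := h1
    obtain ⟨h5, h6⟩ := h2
    rw [abs_le] at h3 h4 h5 h6
    have e1 : ((2 * K₀ : ℕ) : ℤ) * r = K₀ * r + K₀ * r := by push_cast; ring
    rw [e1]
    constructor <;> rw [abs_le] <;> constructor <;> linarith [h3.1, h3.2, h4.1, h4.2, h5.1, h5.2,
      h6.1, h6.2]
  have htail := hT1 r (by omega) p (S : Set Pt) η hpS hSb (fun x _ => by
    have := hηS x
    push_cast
    omega)
  set W : Set Hg := {h | ∀ i, h ∈ E i} with hW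
  have hWS : W ⊆ evS (S : Set Pt) η := by
    intro h hh x hx
    have hx' : x ∈ ⋃ i, T i := by rw [hTU]; exact hx
    obtain ⟨i, hi⟩ := Set.mem_iUnion.1 hx'
    exact (hh i).1 x hi
  have hShW : evS (S : Set Pt) η ∩ Sh L (S : Set Pt) (2 * r) (3 * r - 1) ⊆ W := by
    rintro h ⟨h1, h2⟩ i
    refine ⟨fun x hx => h1 x (hTS i hx), ?_⟩
    rw [← hTU] at h2
    exact Sh_of_union T L hr0 hfar i h2
  obtain ⟨L', hL'⟩ := exists_bL (S ∪ Finset.univ.biUnion fun i => (hthf i).toFinset)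
  have dS : DepS L' (evS (S : Set Pt) η) := by
    intro g h hgh
    exact forall₂_congr fun x hx => by rw [hgh x (hL' (Finset.mem_union_left _ hx))]
  have hmem : ∀ i, ∀ x ∈ thk (T i) (3 * r), x ∈ bL L' := fun i x hx =>
    hL' (Finset.mem_union_right _ (Finset.mem_biUnion.2 ⟨i, Finset.mem_univ i,
      (hthf i).mem_toFinset.2 hx⟩))
  have dW : DepS L' W := by
    intro g h hgh
    constructor
    · exact fun hg i => hEloc i g h (fun x hx => hgh x (hmem i x hx)) (hg i)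
    · exact fun hg i => hEloc i h g (fun x hx => (hgh x (hmem i x hx)).symm) (hg i)
  have fS : muT P (evS (S : Set Pt) η) ≠ ⊤ := F2A.evS_fin hP S.finite_toSet
    ⟨p, hTS 0 hp⟩ η
  have fW : muT P W ≠ ⊤ := ne_top_of_le_ne_top fS (measure_mono hWS)
  have hint : ∀ {B : Set Hg}, MeasurableSet B → ∫ h, ind B h ∂(muT P) = (muT P).real B := by
    intro B hB
    have e : (fun h => ind B h) = B.indicator fun _ => (1 : ℝ) := by
      funext h
      unfold ind
      by_cases h3 : h ∈ B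
      · rw [if_pos h3, Set.indicator_of_mem h3]
      · rw [if_neg h3, Set.indicator_of_notMem h3]
    rw [e, integral_indicator hB, setIntegral_const, smul_eq_mul, mul_one]
  -- the approximation
  refine ⟨⟨(hthf 0).toFinset, (hthf 1).toFinset, (hthf 2).toFinset, ind (E 0), ind (E 1),
    ind (E 2), nu (thk (T 0) r) (T 0) η, nu (thk (T 1) r) (T 1) η, nu (thk (T 2) r) (T 2) η⟩, ?_⟩
  have hWe : ∀ h, ind (E 0) h * ind (E 1) h * ind (E 2) h = ind W h := by
    intro h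
    rw [F2.ind_mul, F2.ind_mul]
    have e : (E 0 ∩ E 1) ∩ E 2 = W := by
      ext g
      constructor
      · rintro ⟨⟨h0, h1⟩, h2⟩ i
        fin_cases i
        · exact h0
        · exact h1
        · exact h2
      · intro hg
        exact ⟨⟨hg 0, hg 1⟩, hg 2⟩
    rw [e]
  refine ⟨hArm 0 _ hb1, hArm 1 _ hb2, hArm 2 _ hb3, fun h _ => ?_, ?_, ?_⟩
  · show ind (E 0) h * ind (E 1) h * ind (E 2) h ≤ _
    rw [hWe, gS_eq_ind]
    unfold ind
    by_cases h1 : h ∈ W
    · rw [if_pos h1, if_pos (hWS h1)]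
    · rw [if_neg h1]
      split_ifs <;> norm_num
  · have e1 : ∫ h, ApD.W ⟨(hthf 0).toFinset, (hthf 1).toFinset, (hthf 2).toFinset, ind (E 0),
        ind (E 1), ind (E 2), nu (thk (T 0) r) (T 0) η, nu (thk (T 1) r) (T 1) η,
        nu (thk (T 2) r) (T 2) η⟩ h ∂(muT P) = (muT P).real W := by
      rw [← hint dW.measurable]
      exact integral_congr_ae (Filter.Eventually.of_forall fun h => hWe h)
    rw [e1]
    have h1 := hlow T η hTb ⟨0, hTne 0⟩ (fun i x _ => by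
      have := hηS x
      omega) hfar
    rw [Fin.prod_univ_three] at h1
    exact h1
  · have e1 : ∀ h, gS S η h - ApD.W ⟨(hthf 0).toFinset, (hthf 1).toFinset, (hthf 2).toFinset,
        ind (E 0), ind (E 1), ind (E 2), nu (thk (T 0) r) (T 0) η, nu (thk (T 1) r) (T 1) η,
        nu (thk (T 2) r) (T 2) η⟩ h = ind (evS (S : Set Pt) η \ W) h := by
      intro h
      have : ApD.W ⟨(hthf 0).toFinset, (hthf 1).toFinset, (hthf 2).toFinset, ind (E 0),
        ind (E 1), ind (E 2), nu (thk (T 0) r) (T 0) η, nu (thk (T 1) r) (T 1) η,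
        nu (thk (T 2) r) (T 2) η⟩ h = ind W h := hWe h
      rw [this, gS_eq_ind]
      unfold ind
      by_cases h1 : h ∈ W
      · rw [if_pos h1, if_pos (hWS h1), if_neg fun h2 => h2.2 h1, sub_self]
      · rw [if_neg h1, sub_zero]
        by_cases h2 : h ∈ evS (S : Set Pt) η
        · rw [if_pos h2, if_pos ⟨h2, h1⟩]
        · rw [if_neg h2, if_neg fun h3 => h2 h3.1]
    rw [integral_congr_ae (Filter.Eventually.of_forall e1), hint (dS.measurable.diff dW.measurable),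
      integral_congr_ae (Filter.Eventually.of_forall (gS_eq_ind S η)), hint dS.measurable]
    refine le_trans ?_ htail
    refine measureReal_mono (fun h hh => ⟨hh.1, fun h2 => hh.2 (hShW ⟨hh.1, h2⟩)⟩) ?_
    exact ne_top_of_le_ne_top fS (measure_mono Set.sdiff_subset)

end Vale.Agent.P153.R2.SDB
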