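import Vale.Agent.P153.R2.SDB.Refl
import Vale.Agent.P153.R2.RDEC.P5

/-!
P153-R2, block SDB (helper435), part 3: given a closed connected set, the high paths rarely escape.
-/

namespace Vale.Agent.P153.R2.SDB

open MeasureTheory Filter Topology Relation
open Vale.Agent.P153 Vale.Agent.P153.F Vale.Agent.P153.F.X Vale.Agent.P153.F.X.LE
open Vale.Agent.P153.F.X.PosT Vale.Agent.P153.F.RSW
open Vale.Agent.P153.GFF (Plane SpecOut RowCLT)
open Vale.Agent.P153.A (Sp IsQ tau rc cd)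
open Vale.Agent.P153.Topo (Conn)
open Vale.Agent.P153.F (Pt)
open Vale.Agent.P153.R2.Gp
open Vale.Agent.P153.R2.RDEC
open scoped Classical

/-- If the closed edges of all the levels confine, those of some level confine. -/
theorem conf_some {g : Pt → ℤ} (hg : ∀ x y, Adj x y → |g x - g y| ≤ 1) {p : Pt} {s R : ℤ}
    (hs : 0 ≤ s) (hc : X.Conf (Sg g) (X.bx p s) (X.bx p R)) :
    ∃ l : ℤ, X.Conf (Sg0 fun x => g x - 4 * l) (X.bx p s) (X.bx p R) := by
  set K : Set Pt := {y | ∃ x ∈ X.bx p s, ReflTransGen (stp (Sg g)) x y} with hK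
  set W : Set Pt := {y | ∃ z, z ∉ X.bx p R ∧ Conn Kᶜ z y} with hW
  have hKR : ∀ y ∈ K, y ∈ X.bx p R := fun y ⟨x, hx, h⟩ => hc x hx y h
  have hsK : ∀ x ∈ X.bx p s, x ∈ K := fun x hx => ⟨x, hx, ReflTransGen.refl⟩
  have hRW : ∀ x, x ∉ X.bx p R → x ∈ W := fun x hx => ⟨x, hx, Conn.refl fun h => hx (hKR x h)⟩
  have hWK : ∀ x ∈ W, x ∉ K := fun x ⟨z, _, h⟩ => h.right_mem
  have hKW : Disjoint K W := Set.disjoint_left.2 fun x h1 h2 => hWK x h2 h1
  -- `K` is connected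
  have hK1 : ∀ x ∈ X.bx p s, ∀ y, ReflTransGen (stp (Sg g)) x y → Conn K x y := by
    intro x hx y hxy
    have : ∀ z, ReflTransGen (stp (Sg g)) x z → Conn K x z := by
      intro z hz
      induction hz with
      | refl => exact Conn.refl (hsK x hx)
      | @tail u v hu huv ih => exact ih.tail huv.1 ⟨x, hx, hu.tail huv⟩
    exact this y hxy
  have hKc : ∀ x ∈ K, ∀ y ∈ K, Conn K x y := by
    rintro x ⟨x', hx', h1⟩ y ⟨y', hy', h2⟩
    refine (hK1 x' hx' x h1).symm.trans (Conn.trans ?_ (hK1 y' hy' y h2))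
    exact (bx_conn hx' hy').mono fun z hz => hsK z hz
  -- `W` is connected
  have hW1 : ∀ z, z ∉ X.bx p R → ∀ y, Conn Kᶜ z y → Conn W z y := by
    intro z hz y hy
    refine Conn.ind (S := Kᶜ) (fun y => Conn W z y) (Conn.refl (hRW z hz)) ?_ hy
    intro u v hu huv hv ih
    exact ih.tail huv ⟨z, hz, hu.tail huv hv⟩
  have hWc : ∀ x ∈ W, ∀ y ∈ W, Conn W x y := by
    rintro x ⟨x', hx', h1⟩ y ⟨y', hy', h2⟩
    refine (hW1 x' hx' x h1).symm.trans (Conn.trans ?_ (hW1 y' hy' y h2))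
    exact (bxc_conn hx' hy').mono fun z hz => hRW z hz
  have hcl : ∀ x ∈ W, ∀ y, Adj x y → y ∉ K → y ∈ W := by
    rintro x ⟨z, hz, h⟩ y hxy hy
    exact ⟨z, hz, h.tail hxy hy⟩
  -- a crossing edge
  have hb : p ∈ X.bx p s := by
    refine ⟨?_, ?_⟩ <;> rw [sub_self, abs_zero] <;> exact hs
  have hb' : ((p.1 + |R| + 1, p.2) : Pt) ∉ X.bx p R := by
    rintro ⟨h1, -⟩
    have h2 := le_abs_self R
    have h3 : ((p.1 + |R| + 1, p.2) : Pt).1 - p.1 = |R| + 1 := by ring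
    rw [h3, abs_of_nonneg (by positivity)] at h1
    omega
  have hbb : Conn Set.univ p (p.1 + |R| + 1, p.2) :=
    Topo.conn_row (s := p.1) (t := p.1 + |R| + 1) fun i _ _ => Set.mem_univ _
  have hcross : ∃ u v, u ∈ K ∧ v ∈ W ∧ Adj u v := by
    by_contra hno
    push Not at hno
    have : ((p.1 + |R| + 1, p.2) : Pt) ∉ W := by
      refine Conn.ind (S := Set.univ) (fun y => y ∉ W) (fun h => hWK p h (hsK p hb)) ?_ hbb
      intro u v hu huv hv ih hvW
      have huK : u ∈ K := by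
        by_contra h
        exact ih (hcl v hvW u (Topo.adj_symm huv) h)
      exact hno u v huK hvW huv
    exact this (hRW _ hb')
  obtain ⟨k0, w0, hk0, hw0, ha0⟩ := hcross
  -- the edges between `K` and `W` are closed
  have hclosed : ∀ k ∈ K, ∀ w ∈ W, Adj k w →
      (g k % 4 = 0 ∨ g k % 4 = 1) ∧ (g w % 4 = 0 ∨ g w % 4 = 1) := by
    rintro k ⟨x, hx, hk⟩ w hw hkw
    by_contra hno
    refine hWK w hw ⟨x, hx, hk.tail ⟨hkw, fun h => hno ((mem_Sg hkw).1 h)⟩⟩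
  set l : ℤ := g k0 / 4 with hl
  have hlev : ∀ k ∈ K, ∀ w ∈ W, Adj k w → g k / 4 = l ∧ g w / 4 = l := by
    intro k hk w hw hkw
    have h1 := PLAN.interface_connected hKW hKc hWc hcl hk0 hw0 ha0 hk hw hkw
    have key : ∀ e : (ℤ × ℤ) × (ℤ × ℤ), ReflTransGen (PLAN.Turn K W) (k0, w0) e →
        e.1 ∈ K ∧ e.2 ∈ W ∧ Adj e.1 e.2 ∧ g e.1 / 4 = l ∧ g e.2 / 4 = l := by
      intro e he
      induction he with
      | refl =>
        refine ⟨hk0, hw0, ha0, rfl, ?_⟩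
        have c1 := hclosed _ hk0 _ hw0 ha0
        have c2 := abs_le.1 (hg _ _ ha0)
        show g w0 / 4 = l
        omega
      | @tail e f _ hef ih =>
        obtain ⟨⟨f1, f2, f3⟩, f4⟩ := hef
        obtain ⟨i1, i2, i3, i4, i5⟩ := ih
        have c1 := hclosed _ f1 _ f2 f3
        have c2 := abs_le.1 (hg _ _ f3)
        refine ⟨f1, f2, f3, ?_⟩
        rcases f4 with ⟨f4, -⟩ | ⟨f4, -⟩
        · rw [f4] at i4
          omega
        · rw [f4] at i5
          omega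
    have h2 := key _ h1
    exact ⟨h2.2.2.2.1, h2.2.2.2.2⟩
  -- confinement
  refine ⟨l, fun x hx y hxy => ?_⟩
  have h1 : ∀ z, ReflTransGen (stp (Sg0 fun x => g x - 4 * l)) x z → z ∉ W := by
    intro z hz
    induction hz with
    | refl => exact fun h => hWK x h (hsK x hx)
    | @tail a c _ hac iha =>
      intro hcW
      have haK : a ∈ K := by
        by_contra h
        exact iha (hcl c hcW a (Topo.adj_symm hac.1) h)
      have h2 := hclosed a haK c hcW hac.1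
      have h3 := hlev a haK c hcW hac.1
      exact hac.2 ⟨a, c, hac.1, rfl, by dsimp only; omega, by dsimp only; omega⟩
  by_contra hy
  exact h1 y hxy (hRW y hy)

/-- The halves of the heights. -/
def hf (h : Hg) (x : Pt) : ℤ := (h x + 1) / 2

/-- There is no confinement by the closed edges of the levels in `8 ℤ`. -/
def NC8 (p : Pt) (s R : ℤ) : Set Hg := {h | ¬ X.Conf (Sg (hf h)) (X.bx p s) (X.bx p R)}

theorem dep_NC8 {p : Pt} {s R : ℤ} {L : ℕ} (hL : ∀ x ∈ X.bx p (R + 1), x ∈ bL L) :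
    DepS L (NC8 p s R) := by
  have key : ∀ h h' : Hg, (∀ x ∈ bL L, h x = h' x) →
      X.Conf (Sg (hf h)) (X.bx p s) (X.bx p R) → X.Conf (Sg (hf h')) (X.bx p s) (X.bx p R) := by
    intro h h' hh hc
    refine conf_local (fun w hw hwb => ?_) hc
    obtain ⟨x, hx, y, hxy, rfl⟩ := hw
    have hx1 : x ∈ X.bx p (R + 1) := ⟨hx.1.trans (by omega), hx.2.trans (by omega)⟩
    have hy1 : y ∈ X.bx p (R + 1) := bx_step hx hxy
    rw [mem_Sg hxy] at hwb ⊢
    unfold hf at hwb ⊢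
    rw [← hh x (hL x hx1), ← hh y (hL y hy1)]
    exact hwb
  exact fun h h' hh => not_congr ⟨key h h' hh, key h' h fun x hx => (hh x hx).symm⟩

variable {Q : Measure A.Om}

/-- Given a closed connected set, confinement at some level in `8 ℤ` is likely. -/
theorem class_small {κ : ℝ} (hQ : IsQ Q) (hP : Plane (Q.map rc)) (hS : SpecOut (Q.map rc) κ)
    (hC : RowCLT (Q.map rc) κ) (hκ : 0 < κ) {ε : ℝ} (hε : 0 < ε) :
    ∃ M₁ : ℕ, 1 ≤ M₁ ∧ ∀ M : ℕ, M₁ ≤ M → ∃ s₀ : ℤ, 1 ≤ s₀ ∧ ∀ s : ℤ, s₀ ≤ s → ∀ (p : Pt)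
      (β : Finset Pt), β.Nonempty → (∀ x ∈ β, ∀ y ∈ β, Conn (β : Set Pt) x y) →
      muT (Q.map rc) (MBz β ∩ NC8 p s (4 * M * s)) ≤
        ENNReal.ofReal ε * muT (Q.map rc) (MBz β) := by
  have hprob := hQ.prob
  obtain ⟨M₁, hM₁, hM⟩ := col_small hQ hP hS hC hκ hε
  refine ⟨M₁, hM₁, fun M hMM => ?_⟩
  obtain ⟨s₀, hs₀, hs⟩ := hM M hMM
  refine ⟨s₀, hs₀, fun s hss p β ⟨b, hbβ⟩ hβ => ?_⟩
  have eR : 4 * (M : ℤ) * s = 2 * (2 * M * s) := by ring
  rw [eR]
  set R : ℤ := 2 * (2 * M * s) with hR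
  have hcomp := (A.s_sym Q hQ).2.2
  obtain ⟨L₁, hL₁⟩ := exists_bx_sub p (R + 1)
  have mNC : MeasurableSet (NC8 p s R) := (dep_NC8 hL₁).measurable
  have eMB : MBz β = MB β := rfl
  rw [eMB, muT_four ((meas_MB β).inter mNC) (b := b) (fun h hh => hh.1 b hbβ),
    muT_four (meas_MB β) (b := b) (fun h hh => hh b hbβ), Finset.mul_sum]
  refine Finset.sum_le_sum fun r _ => ?_
  have h1 : Q {ω | odd (kr b r ω) (rc ω) ∈ MB β ∩ NC8 p s R} ≤
      Q {ω | (∀ x ∈ β, col r ω x = true) ∧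
        ¬ (fun S => X.Conf S (X.bx p s) (X.bx p R)) (Wp (col r ω))} := by
    refine measure_mono_ae ?_
    filter_upwards [hcomp] with ω hω h
    obtain ⟨h2, h3⟩ := h
    have hodd := fun x => odd_kr b r ω x
    refine ⟨fun x hx => (col_iff hω r x).2 ?_, fun hc => h3 ?_⟩
    · have h4 := h2 x hx
      rw [hodd, abs_eq (by norm_num)] at h4
      omega
    · have e : Sg (hf (odd (kr b r ω) (rc ω))) = Wp (col r ω) := by
        rw [Wp_col hω r ((fh ω b + (r : ℕ)) / 4)]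
        congr 1
        funext x
        unfold hf
        rw [hodd x]
        omega
      show X.Conf (Sg (hf (odd (kr b r ω) (rc ω)))) (X.bx p s) (X.bx p R)
      rw [e]
      exact hc
  have h2 : Q {ω | ∀ x ∈ β, col r ω x = true} ≤ Q {ω | odd (kr b r ω) (rc ω) ∈ MB β} := by
    refine measure_mono_ae ?_
    filter_upwards [hcomp] with ω hω h
    exact piece_sup (hβ b hbβ) hω r h
  refine h1.trans (le_trans ?_ (mul_le_mul_right h2 _))
  have h3 := assoc_piece hQ β r (IL_Conf p s R)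
  have h4 := hs s hss p r
  rw [← ofReal_measureReal (μ := Q) (s := {ω | (∀ x ∈ β, col r ω x = true) ∧
        ¬ (fun S => X.Conf S (X.bx p s) (X.bx p R)) (Wp (col r ω))}),
    ← ofReal_measureReal (μ := Q) (s := {ω | ∀ x ∈ β, col r ω x = true}),
    ← ENNReal.ofReal_mul hε.le]
  refine ENNReal.ofReal_le_ofReal (h3.trans ?_)
  rw [mul_comm]
  exact mul_le_mul_of_nonneg_right h4 measureReal_nonneg

end Vale.Agent.P153.R2.SDB
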