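import Vale.Agent.P153.R2.SDB.Conf

/-!
P153-R2, block SDB (helper435), part 4: given a closed connected set `β`, the paths of large
absolute height rarely escape from a box.
-/

namespace Vale.Agent.P153.R2.SDB

open MeasureTheory Filter Topology Relation
open Vale.Agent.P153 Vale.Agent.P153.F Vale.Agent.P153.F.X Vale.Agent.P153.F.X.LE
open Vale.Agent.P153.F.X.PosT Vale.Agent.P153.F.RSW
open Vale.Agent.P153.GFF (Plane SpecOut RowCLT)
open Vale.Agent.P153.A (Sp IsQ tau rc cd)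
open Vale.Agent.P153.Topo (Conn)
open Vale.Agent.P153.F (Pt)
open Vale.Agent.P153.R2.Gp
open Vale.Agent.P153.R2.RDEC
open scoped Classical

/-- Escape of high absolute values. -/
def EA (b : ℤ) (p : Pt) (s R : ℤ) : Set Hg := {h | Esc {x | b ≤ |h x|} p s R}

theorem dep_EA {b : ℤ} {p : Pt} {s R : ℤ} (hsR : s ≤ R) {L : ℕ}
    (hL : ∀ x ∈ X.bx p (R + 1), x ∈ bL L) : DepS L (EA b p s R) :=
  dep_esc (p := p) hsR hL {n : ℤ | b ≤ |n|}

theorem ea_cover {p : Pt} {s R : ℤ} {h : Hg} (hh : Lip h) {b : ℤ} (hs : 0 ≤ s)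
    (hE : h ∈ EA b p s R) (hN : h ∉ NC8 p s R) :
    ∃ l : ℤ, h ∈ CFl (2 * (4 * l)) p s R ∧ ∃ x ∈ X.bx p R, b ≤ |h x| ∧ |h x - 8 * l| = 1 := by
  have hg : ∀ x y, Adj x y → |hf h x - hf h y| ≤ 1 := by
    intro x y hxy
    have h1 := abs_le.1 (hh.2 x y hxy)
    obtain ⟨a, ha⟩ := hh.1 x
    obtain ⟨c, hc⟩ := hh.1 y
    unfold hf
    rw [abs_le]
    omega
  obtain ⟨l, hl⟩ := conf_some hg hs (not_not.1 hN)
  have e : ∀ x, (hf h x - 4 * l = 0 ∨ hf h x - 4 * l = 1) ↔ |h x - 2 * (4 * l)| = 1 := by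
    intro x
    obtain ⟨a, ha⟩ := hh.1 x
    unfold hf
    rw [abs_eq zero_le_one]
    omega
  have ebl : (Sg0 fun x => hf h x - 4 * l) = bl fun x => h x - 2 * (4 * l) := by
    ext w
    constructor
    · rintro ⟨x, y, h1, h2, h3, h4⟩
      exact ⟨x, y, h1, h2, (e x).1 h3, (e y).1 h4⟩
    · rintro ⟨x, y, h1, h2, h3, h4⟩
      exact ⟨x, y, h1, h2, (e x).2 h3, (e y).2 h4⟩
  rw [ebl] at hl
  refine ⟨l, hl, ?_⟩
  obtain ⟨x₀, hx₀, y, hy, hxy⟩ := hE
  by_contra hcon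
  push Not at hcon
  have key : ∀ z, Conn {x | b ≤ |h x|} x₀ z →
      ReflTransGen (stp (bl fun x => h x - 2 * (4 * l))) x₀ z := by
    intro z hz
    refine Conn.ind (S := {x | b ≤ |h x|})
      (fun z => ReflTransGen (stp (bl fun x => h x - 2 * (4 * l))) x₀ z) ReflTransGen.refl ?_ hz
    intro u v hu huv hv ih
    refine ih.tail ⟨huv, fun hb => ?_⟩
    have h1 : |h u - 2 * (4 * l)| = 1 := ((mem_bl (h := fun x => h x - 2 * (4 * l)) huv).1 hb).1
    refine hcon u (hl x₀ hx₀ u ih) hu.right_mem ?_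
    rw [← h1]
    congr 1
    ring
  exact hy (hl x₀ hx₀ y (key y hxy))

variable {P : Measure (Pt → ℤ)}

/-- **Given a closed set, the high paths rarely escape.** -/
theorem esc_small (hP : Plane P) {β : Finset Pt} (hβ : β.Nonempty) {p : Pt} {s R : ℤ}
    (hs : 0 ≤ s) (hβs : ∀ x ∈ β, x ∈ X.bx p s) (u : Pt →₀ ℝ) (hu1 : mass u = 1)
    (hu : ∀ v, u v ≠ 0 → v ∉ X.bx p R) {ε C : ℝ} (hC : 0 ≤ C)
    (hmom : ∫ h in MBz β, Xu u h ^ 2 ∂(muT P) ≤ C * (muT P).real (MBz β))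
    (hcl : (muT P).real (MBz β ∩ NC8 p s R) ≤ ε * (muT P).real (MBz β)) (k : ℕ) :
    (muT P).real (MBz β ∩ EA (8 * k + 9) p s R) ≤
      (ε + C / (16 * (k + 1))) * (muT P).real (MBz β) := by
  obtain ⟨L, q1, q2, q3⟩ := common (β := β) p R u
  have hGb := gb_of_plane hP
  have dM := dep_MBz q2
  have pM := pin_MBz hβ q2
  have fM : muT P (MBz β) ≠ ⊤ := finite_pin hP dM pM
  set μ := (muT P).real (MBz β) with hμ
  have hμ0 : 0 ≤ μ := measureReal_nonneg
  -- the pieces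
  set Ai : ℕ → Set Hg := fun i =>
    (MBz β ∩ CFl (2 * (4 * (i : ℤ))) p s R) ∪ (MBz β ∩ CFl (2 * (4 * (-(i : ℤ)))) p s R) with hAi
  have hcover : ∀ h : Hg, Lip h → h ∈ MBz β ∩ EA (8 * k + 9) p s R →
      h ∈ (MBz β ∩ NC8 p s R) ∪ ⋃ i ∈ Finset.Ioo k (L + 2), Ai i := by
    rintro h hh ⟨h1, h2⟩
    by_cases h3 : h ∈ NC8 p s R
    · exact Or.inl ⟨h1, h3⟩
    right
    obtain ⟨l, h4, x, hx, h5, h6⟩ := ea_cover hh hs h2 h3
    obtain ⟨z, hz⟩ := hβ
    have hxL := q1 x ⟨hx.1.trans (by omega), hx.2.trans (by omega)⟩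
    have h7 := box_bdd (fun x _ y _ hxy => hh.2 x y hxy) hxL (q2 hz)
    have h8 : |h z| = 1 := h1 z hz
    have h9 : |h x| ≤ 8 * L + 1 := by
      have := abs_sub_abs_le_abs_sub (h x) (h z)
      omega
    have h10 : |8 * l| ≤ |h x| + 1 := by
      have e : 8 * l = h x - (h x - 8 * l) := by ring
      rw [e]
      have := abs_sub (h x) (h x - 8 * l)
      omega
    have h11 : |h x| ≤ |8 * l| + 1 := by
      have e : h x = 8 * l + (h x - 8 * l) := by ring
      have := abs_add_le (8 * l) (h x - 8 * l)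
      rw [← e] at this
      omega
    rw [abs_mul, show |(8 : ℤ)| = 8 from rfl] at h10 h11
    have hl1 : (l.natAbs : ℤ) = |l| := Int.natCast_natAbs l
    have hi : l.natAbs ∈ Finset.Ioo k (L + 2) := by
      rw [Finset.mem_Ioo]
      constructor
      · have : (k : ℤ) < l.natAbs := by omega
        exact_mod_cast this
      · have : (l.natAbs : ℤ) < (L + 2 : ℕ) := by push_cast; omega
        exact_mod_cast this
    refine Set.mem_biUnion (show l.natAbs ∈ (Finset.Ioo k (L + 2) : Set ℕ) from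
      by exact_mod_cast hi) ?_
    rcases abs_cases l with ⟨h12, -⟩ | ⟨h12, -⟩
    · left
      refine ⟨h1, ?_⟩
      rw [hl1, h12]
      exact h4
    · right
      refine ⟨h1, ?_⟩
      rw [hl1, h12, neg_neg]
      exact h4
  have hpiece : ∀ i : ℕ, 0 < i → (muT P).real (Ai i) ≤ 2 * (C / 64) * (((i : ℝ) ^ 2)⁻¹ * μ) := by
    intro i hi
    have hi' : (0 : ℝ) < i := by exact_mod_cast hi
    have h1 := lev_bound hP hβ hβs (4 * (i : ℤ)) u hu1 hu
    have h2 := lev_bound hP hβ hβs (4 * (-(i : ℤ))) u hu1 hu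
    have key : ∀ t : ℝ, 64 * (i : ℝ) ^ 2 * t ≤ C * μ → t ≤ C / 64 * (((i : ℝ) ^ 2)⁻¹ * μ) := by
      intro t ht
      have e : C / 64 * (((i : ℝ) ^ 2)⁻¹ * μ) = (C * μ) / (64 * (i : ℝ) ^ 2) := by
        field_simp
      rw [e, le_div_iff₀ (by positivity)]
      linarith
    have k1 := key ((muT P).real (MBz β ∩ CFl (2 * (4 * (i : ℤ))) p s R)) (by
      refine le_trans (le_of_eq ?_) (h1.trans hmom)
      push_cast
      ring)
    have k2 := key ((muT P).real (MBz β ∩ CFl (2 * (4 * (-(i : ℤ)))) p s R)) (by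
      refine le_trans (le_of_eq ?_) (h2.trans hmom)
      push_cast
      ring)
    have h3 := measureReal_union_le (μ := muT P) (MBz β ∩ CFl (2 * (4 * (i : ℤ))) p s R)
      (MBz β ∩ CFl (2 * (4 * (-(i : ℤ)))) p s R)
    simp only [hAi]
    linarith
  have hAM : ∀ i, Ai i ⊆ MBz β := fun i => by
    rintro h (h1 | h1)
    · exact h1.1
    · exact h1.1
  have hfin : muT P ((MBz β ∩ NC8 p s R) ∪ ⋃ i ∈ Finset.Ioo k (L + 2), Ai i) ≠ ⊤ := by
    refine ne_top_of_le_ne_top fM (measure_mono ?_)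
    refine Set.union_subset Set.inter_subset_left (Set.iUnion₂_subset fun i _ => hAM i)
  have hle : (muT P).real (MBz β ∩ EA (8 * k + 9) p s R) ≤
      (muT P).real ((MBz β ∩ NC8 p s R) ∪ ⋃ i ∈ Finset.Ioo k (L + 2), Ai i) := by
    refine ENNReal.toReal_mono hfin (measure_mono_ae ?_)
    filter_upwards [hGb.lip] with h hh h1
    exact hcover h hh h1
  have hsum : ∑ i ∈ Finset.Ioo k (L + 2), (muT P).real (Ai i) ≤ C / (16 * (k + 1)) * μ := by
    calc ∑ i ∈ Finset.Ioo k (L + 2), (muT P).real (Ai i) ≤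
        ∑ i ∈ Finset.Ioo k (L + 2), 2 * (C / 64) * (((i : ℝ) ^ 2)⁻¹ * μ) :=
          Finset.sum_le_sum fun i hi => hpiece i (by have := (Finset.mem_Ioo.1 hi).1; omega)
      _ = 2 * (C / 64) * (∑ i ∈ Finset.Ioo k (L + 2), ((i : ℝ) ^ 2)⁻¹) * μ := by
          rw [← Finset.mul_sum, ← Finset.sum_mul]; ring
      _ ≤ 2 * (C / 64) * (2 / (k + 1)) * μ := by
          refine mul_le_mul_of_nonneg_right (mul_le_mul_of_nonneg_left ?_ (by positivity)) hμ0
          exact sum_Ioo_inv_sq_le k (L + 2)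
      _ = C / (16 * (k + 1)) * μ := by
          have : (k : ℝ) + 1 ≠ 0 := by positivity
          field_simp
          ring
  have h1 := measureReal_union_le (μ := muT P) (MBz β ∩ NC8 p s R)
    (⋃ i ∈ Finset.Ioo k (L + 2), Ai i)
  have h2 : (muT P).real (⋃ i ∈ Finset.Ioo k (L + 2), Ai i) ≤
      ∑ i ∈ Finset.Ioo k (L + 2), (muT P).real (Ai i) :=
    measureReal_biUnion_finset_le _ _
  have e : (ε + C / (16 * (k + 1))) * μ = ε * μ + C / (16 * (k + 1)) * μ := by ring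
  rw [e]
  linarith

end Vale.Agent.P153.R2.SDB
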