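import Vale.Agent.P153.R2.SDB.Esc0
import Vale.Agent.P153.R2.GAPS.MomT

/-!
P153-R2, block SDB (helper435), part 5: one-sided escapes under the open laws.
-/

namespace Vale.Agent.P153.R2.SDB

open MeasureTheory Filter Topology Relation
open Vale.Agent.P153 Vale.Agent.P153.F Vale.Agent.P153.F.X Vale.Agent.P153.F.X.LE
open Vale.Agent.P153.F.Gh
open Vale.Agent.P153.F.X.PosT Vale.Agent.P153.F.RSW
open Vale.Agent.P153.GFF (Plane SpecOut RowCLT)
open Vale.Agent.P153.A (Sp IsQ tau rc cd)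
open Vale.Agent.P153.Topo (Conn)
open Vale.Agent.P153.F (Pt)
open Vale.Agent.P153.R2.Gp
open Vale.Agent.P153.R2.RDEC
open scoped Classical

variable {P : Measure (Pt → ℤ)}

/-- Closedness as a property of the modulus. -/
def ClM (S : Finset Pt) (c : Hg) : Prop :=
  (∀ x ∈ S, c x ≤ 1) ∧ ∀ x ∈ S, ∃ y, Adj x y ∧ c y ≤ 1

theorem abs_odd_le {n : ℤ} (hn : Odd n) : |n| ≤ 1 ↔ |n| = 1 := by
  obtain ⟨k, hk⟩ := hn
  rcases abs_cases n with ⟨h1, h2⟩ | ⟨h1, h2⟩ <;> rw [h1] <;> omega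

theorem clM_iff {S : Finset Pt} {h : Hg} (hh : ∀ x, Odd (h x)) : ClM S (av h) ↔ h ∈ ClE S := by
  refine Iff.trans ?_ cls_bl.symm
  unfold ClM av
  refine and_congr (forall₂_congr fun x _ => abs_odd_le (hh x)) (forall₂_congr fun x _ => ?_)
  exact exists_congr fun y => and_congr_right fun _ => abs_odd_le (hh y)

theorem ind_ae (hP : Plane P) {p : Hg → Prop} [DecidablePred p] {A : Set Hg}
    (mA : MeasurableSet A) (h : ∀ h : Hg, (∀ x, Odd (h x)) → (p h ↔ h ∈ A)) :
    ∫ h, (if p h then (1 : ℝ) else 0) ∂(muT P) = (muT P).real A := by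
  have e : (fun h => if p h then (1 : ℝ) else 0) =ᵐ[muT P] A.indicator fun _ => (1 : ℝ) := by
    filter_upwards [(gb_of_plane hP).lip] with ω hω
    by_cases h1 : ω ∈ A
    · rw [Set.indicator_of_mem h1]
      exact if_pos ((h ω hω.1).2 h1)
    · rw [Set.indicator_of_notMem h1]
      exact if_neg fun h2 => h1 ((h ω hω.1).1 h2)
  rw [integral_congr_ae e, integral_indicator mA, setIntegral_const, smul_eq_mul, mul_one]

theorem ind_ae2 (hP : Plane P) {p q : Hg → Prop} [DecidablePred p] [DecidablePred q]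
    {A B : Set Hg} (mA : MeasurableSet A) (mB : MeasurableSet B)
    (h : ∀ h : Hg, (∀ x, Odd (h x)) → (p h ↔ h ∈ A))
    (h' : ∀ h : Hg, (∀ x, Odd (h x)) → (q h ↔ h ∈ B)) :
    ∫ h, (if p h then (1 : ℝ) else 0) * (if q h then (1 : ℝ) else 0) ∂(muT P) =
      (muT P).real (A ∩ B) := by
  have e : (fun h => (if p h then (1 : ℝ) else 0) * (if q h then (1 : ℝ) else 0)) =ᵐ[muT P]
      (A ∩ B).indicator fun _ => (1 : ℝ) := by
    filter_upwards [(gb_of_plane hP).lip] with ω hω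
    by_cases h1 : ω ∈ A
    · by_cases h2 : ω ∈ B
      · rw [Set.indicator_of_mem (Set.mem_inter h1 h2), if_pos ((h ω hω.1).2 h1),
          if_pos ((h' ω hω.1).2 h2), one_mul]
      · rw [Set.indicator_of_notMem fun h3 => h2 h3.2, if_neg fun h3 => h2 ((h' ω hω.1).1 h3),
          mul_zero]
    · rw [Set.indicator_of_notMem fun h3 => h1 h3.1, if_neg fun h3 => h1 ((h ω hω.1).1 h3),
        zero_mul]
  rw [integral_congr_ae e, integral_indicator (mA.inter mB), setIntegral_const, smul_eq_mul,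
    mul_one]

/-- Fewer closed vertices: more escapes. -/
theorem ea_anti (hP : Plane P) {S β : Finset Pt} (hβS : β ⊆ S) (hβ : β.Nonempty) {b : ℤ} {p : Pt}
    {s R : ℤ} (hsR : s ≤ R) :
    (muT P).real (ClE S ∩ EA b p s R) * (muT P).real (MBz β) ≤
      (muT P).real (ClE S) * (muT P).real (MBz β ∩ EA b p s R) := by
  obtain ⟨x₀, hx₀⟩ := hβ
  obtain ⟨L, hL1, hL2, hL3, -⟩ := exists_L S p (R + 1) ∅
  have hβL : β ⊆ bL L := fun x hx => hL1 (hβS hx)
  have key := fkg_plane hP (bL_nonempty L) (R := 1 + 8 * L)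
    (X₁ := fun c => if ClM S c then 1 else 0) (X₂ := fun c => if ∀ x ∈ β, c x ≤ 1 then 1 else 0)
    (Y := fun c => if Esc {x | b ≤ c x} p s R then 1 else 0)
    (fun c => by split_ifs <;> norm_num) (fun c => by split_ifs <;> norm_num)
    (fun c => by split_ifs <;> norm_num)
    (fun c c' hc => by
      by_cases h1 : Esc {x | b ≤ c x} p s R
      · have h2 : Esc {x | b ≤ c' x} p s R :=
          h1.mono fun x (hx : b ≤ c x) => le_trans hx (hc x)
        simp only [if_pos h1, if_pos h2, le_refl]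
      · simp only [if_neg h1]
        split_ifs <;> norm_num)
    (fun c c' => by
      by_cases h1 : ClM S c
      · by_cases h2 : ∀ x ∈ β, c' x ≤ 1
        · have h3 : ClM S (c ⊓ c') := ⟨fun x hx => (inf_le_left : (c ⊓ c') x ≤ c x).trans (h1.1 x hx),
            fun x hx => by
              obtain ⟨y, hy, h4⟩ := h1.2 x hx
              exact ⟨y, hy, (inf_le_left : (c ⊓ c') y ≤ c y).trans h4⟩⟩
          have h4 : ∀ x ∈ β, (c ⊔ c') x ≤ 1 := fun x hx => sup_le (h1.1 x (hβS hx)) (h2 x hx)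
          rw [if_pos h1, if_pos h2, if_pos h3, if_pos h4]
        · rw [if_neg h2, mul_zero]
          split_ifs <;> norm_num
      · rw [if_neg h1, zero_mul]
        split_ifs <;> norm_num)
    ⟨fun h h' hh => by
      have : ClM S (av h) ↔ ClM S (av h') := by
        unfold ClM av
        refine and_congr (forall₂_congr fun x hx => by rw [hh x (hL1 hx)])
          (forall₂_congr fun x hx => exists_congr fun y => and_congr_right fun hxy => ?_)
        rw [hh y (hL2 x hx y hxy)]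
      simp only [this], fun h hodd hlip hne x hx => by
        have h1 : ClM S (av h) := by
          by_contra h2
          exact hne (if_neg h2)
        have h2 := box_bdd hlip hx (hβL hx₀)
        have h3 : |h x₀| ≤ 1 := h1.1 x₀ (hβS hx₀)
        have h4 := abs_sub_abs_le_abs_sub (h x) (h x₀)
        omega⟩
    ⟨fun h h' hh => by
      have : (∀ x ∈ β, av h x ≤ 1) ↔ ∀ x ∈ β, av h' x ≤ 1 := by
        unfold av
        exact forall₂_congr fun x hx => by rw [hh x (hβL hx)]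
      simp only [this], fun h hodd hlip hne x hx => by
        have h1 : ∀ x ∈ β, av h x ≤ 1 := by
          by_contra h2
          exact hne (if_neg h2)
        have h2 := box_bdd hlip hx (hβL hx₀)
        have h3 : |h x₀| ≤ 1 := h1 x₀ hx₀
        have h4 := abs_sub_abs_le_abs_sub (h x) (h x₀)
        omega⟩
    (fun h h' hh => by
      have : Esc {x | b ≤ av h x} p s R ↔ Esc {x | b ≤ av h' x} p s R :=
        dep_EA (b := b) hsR (fun x hx => hL3 x hx) h h' hh
      simp only [this])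
  have mE : MeasurableSet (EA b p s R) := (dep_EA (b := b) hsR fun x hx => hL3 x hx).measurable
  have mC : MeasurableSet (ClE S) := (dep_cle hL2 hL1).measurable
  have mM : MeasurableSet (MBz β) := (dep_MBz hβL).measurable
  have q1 : ∀ h : Hg, (∀ x, Odd (h x)) → ((∀ x ∈ β, av h x ≤ 1) ↔ h ∈ MBz β) := fun h hh =>
    forall₂_congr fun x _ => abs_odd_le (hh x)
  have k1 := ind_ae2 hP (p := fun h => ClM S (av h)) (q := fun h => Esc {x | b ≤ av h x} p s R)
    mC mE (fun h hh => clM_iff hh) fun h _ => Iff.rfl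
  have k2 := ind_ae2 hP (p := fun h => ∀ x ∈ β, av h x ≤ 1)
    (q := fun h => Esc {x | b ≤ av h x} p s R) mM mE q1 fun h _ => Iff.rfl
  have k3 := ind_ae hP (p := fun h => ∀ x ∈ β, av h x ≤ 1) mM q1
  have k4 := ind_ae hP (p := fun h => ClM S (av h)) mC fun h hh => clM_iff hh
  rw [← k1, ← k2, ← k3, ← k4]
  exact key

/-! ### The uniform mass on a box -/

/-- The box as a finite set. -/
noncomputable def fb (q : Pt) (r : ℤ) : Finset Pt :=
  Finset.Icc (q.1 - r) (q.1 + r) ×ˢ Finset.Icc (q.2 - r) (q.2 + r)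

theorem mem_fb {q x : Pt} {r : ℤ} : x ∈ fb q r ↔ x ∈ X.bx q r := by
  unfold fb
  rw [Finset.mem_product, Finset.mem_Icc, Finset.mem_Icc]
  show _ ↔ |x.1 - q.1| ≤ r ∧ |x.2 - q.2| ≤ r
  rw [abs_le, abs_le]
  omega

theorem coe_fb (q : Pt) (r : ℤ) : (fb q r : Set Pt) = X.bx q r := by
  ext x
  rw [Finset.mem_coe]
  exact mem_fb

theorem card_fb (q : Pt) {r : ℤ} (hr : 0 ≤ r) : ((fb q r).card : ℝ) = (2 * r + 1) ^ 2 := by
  unfold fb
  rw [Finset.card_product, Int.card_Icc, Int.card_Icc]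
  have e1 : ((q.1 + r + 1 - (q.1 - r)).toNat : ℤ) = 2 * r + 1 := by omega
  have e2 : ((q.2 + r + 1 - (q.2 - r)).toNat : ℤ) = 2 * r + 1 := by omega
  have e1' : ((q.1 + r + 1 - (q.1 - r)).toNat : ℝ) = 2 * r + 1 := by exact_mod_cast e1
  have e2' : ((q.2 + r + 1 - (q.2 - r)).toNat : ℝ) = 2 * r + 1 := by exact_mod_cast e2
  push_cast [e1', e2']
  ring

/-- The uniform mass on a box. -/
noncomputable def ub (q : Pt) (r : ℤ) : Pt →₀ ℝ :=
  Finsupp.onFinset (fb q r) (fun v => if v ∈ fb q r then ((fb q r).card : ℝ)⁻¹ else 0)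
    (fun v hv => by
      by_contra h
      exact hv (if_neg h))

theorem ub_apply (q : Pt) (r : ℤ) (v : Pt) :
    ub q r v = if v ∈ fb q r then ((fb q r).card : ℝ)⁻¹ else 0 := rfl

theorem ub_supp {q v : Pt} {r : ℤ} (h : ub q r v ≠ 0) : v ∈ X.bx q r := by
  by_contra h1
  exact h (if_neg fun h2 => h1 (mem_fb.1 h2))

theorem ub_mass (q : Pt) {r : ℤ} (hr : 0 ≤ r) : mass (ub q r) = 1 := by
  have hc := card_fb q hr
  have hc0 : ((fb q r).card : ℝ) ≠ 0 := by
    rw [hc]
    have : (0 : ℝ) ≤ r := by exact_mod_cast hr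
    positivity
  unfold mass
  rw [Finsupp.sum_of_support_subset (ub q r) Finsupp.support_onFinset_subset (fun _ a => a)
    (fun _ _ => rfl)]
  have : ∀ v ∈ fb q r, ub q r v = ((fb q r).card : ℝ)⁻¹ := fun v hv => if_pos hv
  rw [Finset.sum_congr rfl this, Finset.sum_const, nsmul_eq_mul, mul_inv_cancel₀ hc0]

/-! ### One-sided escapes -/

/-- Data at most `2 t - 1`: the escapes of `{h ≥ b + 2 t}` are at most as likely as the escapes of
`{|h| ≥ b}` given the closed event. -/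
theorem up_open (hP : Plane P) {S : Finset Pt} (hS : S.Nonempty) {η : Hg} {t : ℤ} {b : ℤ}
    (hη : ∀ x ∈ S, η x ≤ 2 * t - 1) {p : Pt} {s R : ℤ} (hsR : s ≤ R) :
    (muT P).real (On S (fun x => {η x}) ∩ {h | Esc {x | b + 2 * t ≤ h x} p s R}) *
        (muT P).real (ClE S) ≤
      (muT P).real (ClE S ∩ EA b p s R) * (muT P).real (On S fun x => {η x}) := by
  obtain ⟨x₀, hx₀⟩ := hS
  obtain ⟨L, hL1, hL2, hL3, -⟩ := exists_L S p (R + 1) ∅
  have dE : DepS L {h : Hg | Esc {x | b + 2 * t ≤ h x} p s R} :=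
    dep_esc hsR (fun x hx => hL3 x hx) {n : ℤ | b + 2 * t ≤ n}
  have dE' : DepS L {h : Hg | Esc {x | b ≤ h x} p s R} :=
    dep_esc hsR (fun x hx => hL3 x hx) {n : ℤ | b ≤ n}
  have dO := On.dep hL1 (fun x => ({η x} : Set ℤ))
  set J' : Pt → Set ℤ := fun x => {a | a + 2 * t ∈ ({η x} : Set ℤ)} with hJ'
  have e1 : (muT P).real (On S (fun x => {η x}) ∩ {h | Esc {x | b + 2 * t ≤ h x} p s R}) =
      (muT P).real (On S J' ∩ {h | Esc {x | b ≤ h x} p s R}) := by
    rw [← real_sh t (dO.inter dE).measurable]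
    congr 1
    ext h
    simp only [Set.preimage_inter, Set.mem_inter_iff, Set.mem_preimage, Set.mem_ofPred_eq,
      add_le_add_iff_right]
    exact Iff.rfl
  have e2 : (muT P).real (On S fun x => {η x}) = (muT P).real (On S J') :=
    (real_onS_shift (fun x => {η x}) t).symm
  have key := up_core hP (S := S) (J := J') (fun x hx a ha => by
      have h1 : a + 2 * t = η x := ha
      have := hη x hx
      omega) hx₀ (M := |η x₀ - 2 * t|) (fun a ha => by
      have h1 : a + 2 * t = η x₀ := ha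
      rw [← h1, add_sub_cancel_right]) dE' (fun h h' hh hE =>
        hE.mono fun x (hx : b ≤ h x) => le_trans hx (hh x))
  rw [e1, e2]
  refine key.trans (mul_le_mul_of_nonneg_right ?_ measureReal_nonneg)
  have hfin : muT P (ClE S ∩ EA b p s R) ≠ ⊤ := by
    refine ne_top_of_le_ne_top (finite_pin hP (dep_cle hL2 hL1) (M := 1) ?_)
      (measure_mono Set.inter_subset_left)
    exact fun h hh _ => ⟨x₀, hL1 hx₀, ((cls_bl.1 hh).1 x₀ hx₀).le⟩
  refine measureReal_mono (fun h hh => ⟨hh.1, ?_⟩) hfin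
  exact Esc.mono (fun x (hx : b ≤ h x) => le_trans hx (le_abs_self _)) hh.2

/-- The mirror statement. -/
theorem esc_ratio (hP : Plane P) (hR : S_rsw P) {S β : Finset Pt} (hβS : β ⊆ S)
    (hβ : β.Nonempty) {η : Hg} {t : ℤ} {b : ℤ} (hη : ∀ x ∈ S, η x ≤ 2 * t - 1) {p : Pt} {s R : ℤ}
    (hsR : s ≤ R) {ε : ℝ}
    (h1 : (muT P).real (MBz β ∩ EA b p s R) ≤ ε * (muT P).real (MBz β)) :
    (muT P).real (On S (fun x => {η x}) ∩ {h | Esc {x | b + 2 * t ≤ h x} p s R}) ≤
      ε * (muT P).real (On S fun x => {η x}) := by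
  have hS : S.Nonempty := hβ.mono hβS
  have hc := cle_pos hP hR s_conf hS
  obtain ⟨L, hL⟩ := exists_bL β
  have fM : muT P (MBz β) ≠ ⊤ := finite_pin hP (dep_MBz hL) (pin_MBz hβ hL)
  have hm : 0 < (muT P).real (MBz β) := by
    refine ENNReal.toReal_pos (ne_of_gt ?_) fM
    refine lt_of_lt_of_le (cyl_one_pos hP hR s_conf β) (measure_mono fun h hh x hx => ?_)
    rw [hh x hx]; rfl
  have k1 := up_open hP hS hη hsR (b := b) (p := p)
  have k2 := ea_anti hP hβS hβ hsR (b := b) (p := p)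
  set A := (muT P).real (On S (fun x => {η x}) ∩ {h | Esc {x | b + 2 * t ≤ h x} p s R})
  set O := (muT P).real (On S fun x => {η x})
  set c := (muT P).real (ClE S)
  set ce := (muT P).real (ClE S ∩ EA b p s R)
  set m := (muT P).real (MBz β)
  set me := (muT P).real (MBz β ∩ EA b p s R)
  have hO : 0 ≤ O := measureReal_nonneg
  have k3 : ce * m ≤ c * (ε * m) := k2.trans (mul_le_mul_of_nonneg_left h1 hc.le)
  have k4 : ce ≤ c * ε := by
    have : ce * m ≤ (c * ε) * m := by rw [mul_assoc]; exact k3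
    exact le_of_mul_le_mul_right this hm
  have k5 : A * c ≤ (ε * O) * c := by
    calc A * c ≤ ce * O := k1
      _ ≤ (c * ε) * O := mul_le_mul_of_nonneg_right k4 hO
      _ = (ε * O) * c := by ring
  exact le_of_mul_le_mul_right k5 hc

variable {Q : Measure A.Om}

/-- **Escapes under the open laws.** -/
theorem esc_open {κ : ℝ} (hQ : IsQ Q) (hP : Plane (Q.map rc)) (hS : SpecOut (Q.map rc) κ)
    (hC : RowCLT (Q.map rc) κ) (hκ : 0 < κ) (hMom : S_mom (Q.map rc)) (hE : S_emom (Q.map rc))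
    (hR : S_rsw (Q.map rc)) (K : ℕ) (hK : 1 ≤ K) {ε : ℝ} (hε : 0 < ε) :
    ∃ (b : ℤ) (M : ℕ), 3 ≤ b ∧ 1 ≤ M ∧ ∃ s₀ : ℤ, 1 ≤ s₀ ∧ ∀ r : ℤ, s₀ ≤ r → ∀ (p : Pt)
      (S : Finset Pt) (η : Hg) (t : ℤ), (∀ x ∈ X.bx p r, x ∈ S) →
      (∀ x ∈ S, η x ≤ 2 * t - 1) →
      (muT (Q.map rc)).real (On S (fun x => {η x}) ∩
          {h | Esc {x | b + 2 * t ≤ h x} p (K * r) (4 * M * (K * r))}) ≤
        ε * (muT (Q.map rc)).real (On S fun x => {η x}) := by
  have hprob := hQ.prob
  obtain ⟨M, hM1, hM⟩ := class_small hQ hP hS hC hκ (show 0 < ε / 2 by positivity)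
  obtain ⟨s₁, hs₁, hcl⟩ := hM M le_rfl
  set K' : ℝ := 16 * (4 * M * K + 3) with hK'
  have hK'0 : 0 < K' := by positivity
  obtain ⟨C, hC0, s₂, hs₂, hmom⟩ := mom_open hP hMom hE hR s_loc s_conf K' 1 hK'0
  obtain ⟨k, hk⟩ := exists_nat_gt (4 * C / (16 * (ε / 2)))
  refine ⟨8 * k + 9, M, by omega, hM1, max s₁ (8 * s₂ + 8), le_max_of_le_left hs₁,
    fun r hr p S η t hβS hη => ?_⟩
  have hr1 : s₁ ≤ r := (le_max_left _ _).trans hr
  have hr2 : 8 * s₂ + 8 ≤ r := (le_max_right _ _).trans hr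
  have hKz : (1 : ℤ) ≤ K := by exact_mod_cast hK
  have hMz : (1 : ℤ) ≤ M := by exact_mod_cast hM1
  have hKr : r ≤ K * r := by nlinarith
  have hKr0 : 0 ≤ (K : ℤ) * r := by nlinarith
  set s : ℤ := K * r with hs
  set R : ℤ := 4 * M * s with hRd
  have hsR : s ≤ R := by rw [hRd]; nlinarith
  set β : Finset Pt := fb p r with hβ
  have hβne : β.Nonempty := ⟨p, mem_fb.2 ⟨by rw [sub_self, abs_zero]; omega,
    by rw [sub_self, abs_zero]; omega⟩⟩
  have hβS' : β ⊆ S := fun x hx => hβS x (mem_fb.1 hx)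
  have hβs : ∀ x ∈ β, x ∈ X.bx p s := fun x hx => Gp.bx_mono hKr (mem_fb.1 hx)
  have hβc : ∀ x ∈ β, ∀ y ∈ β, Conn (β : Set Pt) x y := fun x hx y hy => by
    rw [hβ, coe_fb]
    exact bx_conn (mem_fb.1 hx) (mem_fb.1 hy)
  -- the circuits
  have c1 := hcl s (hr1.trans hKr) p β hβne hβc
  obtain ⟨L, hL⟩ := exists_bL β
  have fM : muT (Q.map rc) (MBz β) ≠ ⊤ := finite_pin hP (dep_MBz hL) (pin_MBz hβne hL)
  have c2 : (muT (Q.map rc)).real (MBz β ∩ NC8 p s R) ≤
      ε / 2 * (muT (Q.map rc)).real (MBz β) := by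
    have h5 := ENNReal.toReal_mono (ENNReal.mul_ne_top ENNReal.ofReal_ne_top fM) c1
    rw [ENNReal.toReal_mul, ENNReal.toReal_ofReal (by positivity)] at h5
    exact h5
  -- the moments
  set q : Pt := (p.1 + R + r + 1, p.2) with hq
  set u := ub q r with hu
  set s' : ℤ := r / 8 with hs'
  have hs'1 : s₂ ≤ s' := by omega
  have hs'2 : 8 * s' ≤ r := by omega
  have hs'3 : r ≤ 16 * s' := by omega
  have hs'0 : (1 : ℤ) ≤ s' := by omega
  have hr0 : (0 : ℤ) ≤ r := by omega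
  have hR0 : (0 : ℤ) ≤ R := by nlinarith
  have hrr : (r : ℝ) ≤ 16 * s' := by exact_mod_cast hs'3
  have hs'r : (8 * s' : ℝ) ≤ r := by exact_mod_cast hs'2
  have hs'p : (1 : ℝ) ≤ s' := by exact_mod_cast hs'0
  have hsupp : ∀ v, u v ≠ 0 → v.1 - p.1 ≤ R + 2 * r + 1 ∧ R + 1 ≤ v.1 - p.1 ∧ |v.2 - p.2| ≤ r := by
    intro v hv
    obtain ⟨h1, h2⟩ := ub_supp hv
    have e1 : q.1 = p.1 + R + r + 1 := rfl
    have e2 : q.2 = p.2 := rfl
    rw [e1, abs_le] at h1
    rw [e2] at h2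
    exact ⟨by omega, by omega, h2⟩
  have hmass : mass u = 1 := ub_mass q hr0
  have hRr : (R : ℝ) = 4 * M * (K * r) := by rw [hRd, hs]; push_cast; ring
  have hbig : (R : ℝ) + 2 * r + 1 ≤ K' * s' := by
    rw [hRr, hK']
    have h1 : (1 : ℝ) ≤ r := by linarith
    have h2 : (4 : ℝ) * M * (K * r) + 2 * r + 1 ≤ (4 * M * K + 3) * r := by nlinarith
    have h3 : (4 * (M : ℝ) * K + 3) * r ≤ (4 * M * K + 3) * (16 * s') :=
      mul_le_mul_of_nonneg_left hrr (by positivity)
    linarith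
  have hm := hmom s' hs'1 p u (fun v => ?_) (fun v hv => ?_) (fun v hv => ?_) β (fun x hx _ => ?_)
    1 zero_le_one (fun _ => {-1, 1}) (fun x _ a ha => ?_)
  · rw [← MBz_eq] at hm
    have c3 : ∫ h in MBz β, Xu u h ^ 2 ∂(muT (Q.map rc)) ≤
        4 * C * (muT (Q.map rc)).real (MBz β) := by
      have e : Xu u = Xu u := rfl
      simp only [mul_one] at hm
      refine hm.trans (le_of_eq ?_)
      push_cast
      ring
    have c4 := esc_small hP hβne hKr0 hβs u hmass (fun v hv => ?_) (by positivity) c3 c2 k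
      (R := R) (p := p)
    · refine esc_ratio hP hR hβS' hβne hη hsR (c4.trans ?_)
      refine mul_le_mul_of_nonneg_right ?_ measureReal_nonneg
      have h2 : 4 * C / (16 * (k + 1)) ≤ ε / 2 := by
        rw [div_lt_iff₀ (by positivity)] at hk
        rw [div_le_iff₀ (by positivity)]
        nlinarith
      linarith
    · obtain ⟨h1, h2, h3⟩ := hsupp v hv
      rintro ⟨h4, -⟩
      rw [abs_le] at h4
      omega
  · have hc := card_fb q hr0
    rw [hu, ub_apply]
    have hr1' : (1 : ℝ) ≤ r := by linarith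
    split_ifs
    · rw [hc]
      refine ⟨by positivity, ?_⟩
      rw [← one_div, div_le_div_iff₀ (by positivity) (by positivity), one_mul]
      have h4 : (s' : ℝ) ≤ 2 * r + 1 := by linarith
      have h5 : (s' : ℝ) ^ 2 ≤ (2 * r + 1) ^ 2 := pow_le_pow_left₀ (by linarith) h4 2
      have h6 : 1 ≤ K' := by
        rw [hK']
        have : (0 : ℝ) ≤ 4 * M * K := by positivity
        linarith
      nlinarith
    · exact ⟨le_rfl, by positivity⟩
  · obtain ⟨h1, h2, h3⟩ := hsupp v hv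
    have h4 : |((v.1 - p.1 : ℤ) : ℝ)| ≤ R + 2 * r + 1 := by
      have : |v.1 - p.1| ≤ R + 2 * r + 1 := by rw [abs_le]; omega
      exact_mod_cast this
    have h5 : |((v.2 - p.2 : ℤ) : ℝ)| ≤ R + 2 * r + 1 := by
      have : |v.2 - p.2| ≤ R + 2 * r + 1 := by omega
      exact_mod_cast this
    exact ⟨h4.trans hbig, h5.trans hbig⟩
  · obtain ⟨h1, h2, h3⟩ := hsupp v hv
    rintro ⟨h4, -⟩
    rw [abs_le] at h4
    omega
  · rw [hβ, mem_fb]
    refine Gp.bx_mono ?_ hx
    omega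
  · rcases ha with rfl | ha
    · norm_num
    · rw [Set.mem_singleton_iff] at ha
      rw [ha]
      norm_num

end Vale.Agent.P153.R2.SDB
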