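import Vale.Agent.P153.R2.SDB.Refl
import Vale.Agent.P153.R2.F2.Expl

/-!
# P153-R2, block SDB: `muT P` is invariant under `h ↦ - h`
-/

namespace Vale.Agent.P153.R2.SDB

open Finset MeasureTheory Filter Topology Relation Vale.Agent.P153 Vale.Agent.P153.F
  Vale.Agent.P153.F.Gh Vale.Agent.P153.F.X Vale.Agent.P153.F.X.LE
open Vale.Agent.P153.GFF (Ht Pat hexa LocLim)
open Vale.Agent.P153.Topo (Conn)
open Vale.Agent.P153.F (Pt)
open Vale.Agent.P153.R2.Gp
open scoped Classical

variable {P : Measure (Pt → ℤ)}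

theorem rfo_empty {D : Finset Pt} (H : Option {x // x ∈ D} → ℤ) (v : Option {x // x ∈ D}) :
    rfo (∅ : Set (Option {x // x ∈ D})) H v = - H v := by
  unfold rfo
  rw [if_neg]
  rintro ⟨_, hu, -⟩
  exact hu

/-- Flip symmetry on local events with pinned heights. -/
theorem real_ng (hP : GFF.Plane P) {A : Set Hg} {L : ℕ} {M : ℤ} (hA : DepS L A)
    (hp : PinB L M A) : (muT P).real {h | F2.ng h ∈ A} = (muT P).real A := by
  set A' : Set Hg := {h | F2.ng h ∈ A} with hA'd
  have hA' : DepS L A' := fun h h' hh => hA _ _ fun x hx => by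
    show - h x = - h' x
    rw [hh x hx]
  have hp' : PinB L M A' := fun h hh hl => by
    obtain ⟨x, hx, h1⟩ := hp _ hh ⟨fun x hx => (hl.1 x hx).neg, fun x hx y hy hxy => by
      have h1 : |h x - h y| ≤ 2 := hl.2 x hx y hy hxy
      show |-h x - -h y| ≤ 2
      rw [abs_le] at h1 ⊢
      omega⟩
    exact ⟨x, hx, by rwa [show F2.ng h x = - h x from rfl, abs_neg] at h1⟩
  obtain ⟨n₁, hn₁⟩ := Vale.Agent.P153.A.GibbsPf.large (bL L)
  have l1 := lcl_ind hA hp (F := fun _ => (1 : ℝ)) fun _ _ _ => rfl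
  have l2 := lcl_ind hA' hp' (F := fun _ => (1 : ℝ)) fun _ _ _ => rfl
  have key := int_zero hP (bL_nonempty L) (R := M + 8 * L)
    (F := fun h => A.indicator (fun _ => (1 : ℝ)) h - A'.indicator (fun _ => (1 : ℝ)) h)
    ⟨fun h h' hh => by rw [l1.dep h h' hh, l2.dep h h' hh], fun h h1 h2 h3 => by
      by_cases h4 : A.indicator (fun _ => (1 : ℝ)) h = 0
      · refine l2.bdd h h1 h2 fun h5 => h3 ?_
        rw [h4, h5, sub_zero]
      · exact l1.bdd h h1 h2 h4⟩ ?_
  · have f1 := finite_pin hP hA hp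
    have f2 := finite_pin hP hA' hp'
    have i1 : Integrable (A.indicator fun _ => (1 : ℝ)) (muT P) :=
      (integrable_indicator_iff hA.measurable).2 (integrableOn_const f1)
    have i2 : Integrable (A'.indicator fun _ => (1 : ℝ)) (muT P) :=
      (integrable_indicator_iff hA'.measurable).2 (integrableOn_const f2)
    rw [integral_sub i1 i2, integral_indicator hA.measurable, integral_indicator hA'.measurable,
      setIntegral_const, setIntegral_const, smul_eq_mul, smul_eq_mul, mul_one, mul_one] at key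
    linarith
  · filter_upwards [eventually_ge_atTop n₁] with n h1
    refine Eventually.of_forall fun N => ?_
    have hD : ∀ x ∈ bL L, x ∈ hexa n := fun x hx => (hn₁ n h1 x hx).1
    rw [Finset.sum_sub_distrib, sub_eq_zero]
    refine Finset.sum_nbij' (rfo ∅) (rfo ∅) (fun H hH => rfo_mem hH) (fun H hH => rfo_mem hH)
      (fun H _ => rfo_rfo ∅ H) (fun H _ => rfo_rfo ∅ H) (fun H _ => ?_)
    have e : ex1 H ∈ A ↔ ex1 (rfo ∅ H) ∈ A' := hA _ _ fun x hx => by
      show ex1 H x = - ex1 (rfo ∅ H) x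
      rw [ex1_in (hD x hx), ex1_in (hD x hx), rfo_empty, neg_neg]
    by_cases h2 : ex1 H ∈ A
    · rw [Set.indicator_of_mem h2, Set.indicator_of_mem (e.1 h2)]
    · rw [Set.indicator_of_notMem h2, Set.indicator_of_notMem fun h3 => h2 (e.2 h3)]

end Vale.Agent.P153.R2.SDB
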