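import Vale.Agent.P153.R2.SDB.Asm2
import Vale.Agent.P153.R2.SDB.Tail
import Vale.Agent.P153.R2.F2A.Lc

/-!
# P153-R2, block SDB: `S_sdb`, the Schwinger-Dyson equations for the open laws
-/

set_option autoImplicit false

namespace Vale.Agent.P153.R2.SDB

open Set MeasureTheory Topology
open Vale.Agent.P145.PT (TestOn lap)
open Vale.Agent.P153 Vale.Agent.P153.R2
open Vale.Agent.P153.F (muT gb_of_plane)
open Vale.Agent.P153.F.SD (PW lat CLT)
open Vale.Agent.P153.F.Top (dp c1 c2)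
open Vale.Agent.P153.F.X (S_int S_pos S_rsw S_mom S_emom S_loc S_conf)
open Vale.Agent.P153.GFF (Plane SpecOut RowCLT)
open Vale.Agent.P153.A (IsQ rc)
open Vale.Agent.P153.SDAD (adaptUJ MomT ApproxS)
open Vale.Agent.P153.R2.SDAR (gS Bd S_sdb tcell)
open Vale.Agent.P153.R2.F2 (Cx thk OneS)
open Vale.Agent.P153.R2.F2A (evS Sh nu Far onearm_k lower_arms)

/-- The arm inputs. -/
theorem s_arms {P : Measure (Pt → ℤ)} (hP : GFF.Plane P) (hpos : S_pos P) {R s₀ : ℤ} {c : ℝ}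
    (hR : 1 ≤ R) (hs₀ : 1 ≤ s₀) (hc : 0 < c) (hone : OneS R s₀ c) : S_arms P := by
  intro L
  obtain ⟨k₁, hk₁, h1⟩ := onearm_k hR hs₀ hc hone L
  obtain ⟨k₂, hk₂, h2⟩ := lower_arms hP hpos hR hs₀ hc hone L
  refine ⟨max k₁ k₂, le_max_of_le_left hk₁, fun ρ => ?_⟩
  obtain ⟨C, hC, h3⟩ := h1 ρ
  obtain ⟨c', s₁, hc', hs₁, h4⟩ := h2 ρ
  refine ⟨C, c', s₁, hC, hc', hs₀.trans hs₁, fun s hs r hkr h3r => ?_⟩
  have hs1 : 1 ≤ s := hs₀.trans (hs₁.trans hs)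
  have q1 : k₁ * s ≤ r := (mul_le_mul_of_nonneg_right (le_max_left _ _) (by omega)).trans hkr
  have q2 : k₂ * s ≤ r := (mul_le_mul_of_nonneg_right (le_max_right _ _) (by omega)).trans hkr
  refine ⟨fun S V η ξ hS hη hV hSV hne => ?_, fun S η hS hne hη hfar => ?_⟩
  · exact h3 s (hs₁.trans hs) 0 S V η ξ r hS hη q1 h3r hV hSV hne
  · exact h4 s hs (Fin 3) S η r hS hne hη hfar q2 h3r

/-! ### The enlarged cell -/

theorem c1_cont : Continuous c1 := by unfold F.Top.c1; fun_prop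
theorem c2_cont : Continuous c2 := by unfold F.Top.c2; fun_prop

/-- The point with given lattice coordinates. -/
noncomputable def pt (a b : ℝ) : ℝ × ℝ := (a + b / 2, b * (√3 / 2))

theorem c1_pt (a b : ℝ) : c1 (pt a b) = a := by
  unfold F.Top.c1 pt
  have : (√3 : ℝ) ≠ 0 := by positivity
  field_simp
  ring

theorem c2_pt (a b : ℝ) : c2 (pt a b) = b := by
  unfold F.Top.c2 pt
  have : (√3 : ℝ) ≠ 0 := by positivity
  field_simp

theorem TestOn.mono' {A B : Set (ℝ × ℝ)} (h : A ⊆ B) {f : ℝ × ℝ → ℝ} (hf : TestOn A f) :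
    TestOn B f := ⟨hf.1, hf.2.1, hf.2.2.trans h⟩

/-- Enlarged cells have arms which meet `D`. -/
theorem exists_cell (b : PW) (hb : b.x0 + b.y0 < b.s0) (he : 0 < b.e) {D : Set (ℝ × ℝ)}
    (hD : IsOpen D) (hT : tcell b 0 ⊆ D) : ∃ b' : PW, b'.x0 = b.x0 ∧ b'.y0 = b.y0 ∧
      b'.s0 = b.s0 ∧ 0 < b'.e ∧ b.K1 ⊆ b'.K1 ∧ b.K2 ⊆ b'.K2 ∧ b.K3 ⊆ b'.K3 ∧
      (∃ ρ : ℝ × ℝ → ℝ, TestOn (b'.K1 ∩ D) ρ ∧ ∫ x, ρ x = 1) ∧
      ∃ ρ : ℝ × ℝ → ℝ, TestOn (b'.K3 ∩ D) ρ ∧ ∫ x, ρ x = 1 := by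
  set m : ℝ := (b.y0 + b.s0 - b.x0) / 2 with hm
  set m' : ℝ := (b.x0 + b.s0 - b.y0) / 2 with hm'
  have h1 : pt (b.x0 - 0) m ∈ D := hT (by
    refine ⟨?_, ?_, ?_⟩
    · rw [c1_pt]
    · rw [c2_pt]; linarith
    · rw [c1_pt, c2_pt]; linarith)
  have h3 : pt m' (b.y0 - 0) ∈ D := hT (by
    refine ⟨?_, ?_, ?_⟩
    · rw [c1_pt]; linarith
    · rw [c2_pt]
    · rw [c1_pt, c2_pt]; linarith)
  have cont1 : Continuous fun τ : ℝ => pt (b.x0 - τ) m := by unfold pt; fun_prop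
  have cont3 : Continuous fun τ : ℝ => pt m' (b.y0 - τ) := by unfold pt; fun_prop
  have ev1 : ∀ᶠ τ in 𝓝 (0 : ℝ), pt (b.x0 - τ) m ∈ D :=
    cont1.continuousAt.eventually_mem (hD.mem_nhds h1)
  have ev3 : ∀ᶠ τ in 𝓝 (0 : ℝ), pt m' (b.y0 - τ) ∈ D :=
    cont3.continuousAt.eventually_mem (hD.mem_nhds h3)
  obtain ⟨τ, hτ, hτ0⟩ := (((ev1.and ev3).filter_mono nhdsWithin_le_nhds).and
    (self_mem_nhdsWithin (s := Set.Ioi (0 : ℝ)))).exists
  have hτ0' : 0 < τ := hτ0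
  set R' : ℝ := |b.R| + |b.x0| + |b.y0| + |m| + |m'| + τ + 1 with hR'
  set b' : PW := ⟨b.x0, b.y0, b.s0, min b.e (τ / 2), R'⟩ with hb'
  have he' : min b.e (τ / 2) ≤ b.e := min_le_left _ _
  have heτ : min b.e (τ / 2) ≤ τ / 2 := min_le_right _ _
  have hRR : b.R ≤ R' := by
    have h := le_abs_self b.R
    rw [hR']
    linarith [abs_nonneg b.x0, abs_nonneg b.y0, abs_nonneg m, abs_nonneg m']
  refine ⟨b', rfl, rfl, rfl, lt_min he (by positivity), ?_, ?_, ?_, ?_, ?_⟩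
  · rintro z ⟨q1, q2, q3⟩
    exact ⟨q1.trans (by show b.x0 - b.e ≤ b.x0 - min b.e (τ / 2); linarith), q2.trans hRR,
      q3.trans hRR⟩
  · rintro z ⟨q1, q2, q3, q4⟩
    exact ⟨le_trans (by show b.s0 + min b.e (τ / 2) ≤ b.s0 + b.e; linarith) q1, q2,
      q3.trans hRR, q4.trans hRR⟩
  · rintro z ⟨q1, q2, q3, q4, q5⟩
    exact ⟨q1.trans (by show b.y0 - b.e ≤ b.y0 - min b.e (τ / 2); linarith), q2, q3,
      q4.trans hRR, q5.trans hRR⟩
  · set O : Set (ℝ × ℝ) := D ∩ ({z | c1 z < b.x0 - τ / 2} ∩ ({z | |c1 z| < R'} ∩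
      {z | |c2 z| < R'})) with hO
    have oO : IsOpen O := hD.inter ((isOpen_lt c1_cont continuous_const).inter
      ((isOpen_lt c1_cont.abs continuous_const).inter (isOpen_lt c2_cont.abs continuous_const)))
    have zO : pt (b.x0 - τ) m ∈ O := by
      refine ⟨hτ.1, ?_, ?_, ?_⟩
      · rw [Set.mem_ofPred_eq, c1_pt]; linarith
      · rw [Set.mem_ofPred_eq, c1_pt]
        have := abs_sub b.x0 τ
        rw [abs_of_pos hτ0'] at this
        rw [hR']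
        linarith [abs_nonneg b.R, abs_nonneg b.y0, abs_nonneg m, abs_nonneg m']
      · rw [Set.mem_ofPred_eq, c2_pt, hR']
        linarith [abs_nonneg b.R, abs_nonneg b.y0, abs_nonneg b.x0, abs_nonneg m']
    obtain ⟨ρ, hρ, hρ1⟩ := exists_test oO zO
    refine ⟨ρ, TestOn.mono' ?_ hρ, hρ1⟩
    rintro z ⟨q1, q2, q3, q4⟩
    have q2' : c1 z < b.x0 - τ / 2 := q2
    have q3' : |c1 z| < R' := q3
    have q4' : |c2 z| < R' := q4
    exact ⟨⟨by show c1 z ≤ b.x0 - min b.e (τ / 2); linarith, q3'.le, q4'.le⟩, q1⟩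
  · set O : Set (ℝ × ℝ) := D ∩ ({z | c2 z < b.y0 - τ / 2} ∩ ({z | b.x0 < c1 z} ∩
      ({z | c1 z + c2 z < b.s0} ∩ ({z | |c1 z| < R'} ∩ {z | |c2 z| < R'})))) with hO
    have oO : IsOpen O := hD.inter ((isOpen_lt c2_cont continuous_const).inter
      ((isOpen_lt continuous_const c1_cont).inter ((isOpen_lt (c1_cont.add c2_cont)
        continuous_const).inter ((isOpen_lt c1_cont.abs continuous_const).inter
          (isOpen_lt c2_cont.abs continuous_const)))))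
    have zO : pt m' (b.y0 - τ) ∈ O := by
      refine ⟨hτ.2, ?_, ?_, ?_, ?_, ?_⟩
      · rw [Set.mem_ofPred_eq, c2_pt]; linarith
      · rw [Set.mem_ofPred_eq, c1_pt]; linarith
      · rw [Set.mem_ofPred_eq, c1_pt, c2_pt]; linarith
      · rw [Set.mem_ofPred_eq, c1_pt, hR']
        linarith [abs_nonneg b.R, abs_nonneg b.y0, abs_nonneg b.x0, abs_nonneg m]
      · rw [Set.mem_ofPred_eq, c2_pt]
        have := abs_sub b.y0 τ
        rw [abs_of_pos hτ0'] at this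
        rw [hR']
        linarith [abs_nonneg b.R, abs_nonneg b.x0, abs_nonneg m, abs_nonneg m']
    obtain ⟨ρ, hρ, hρ1⟩ := exists_test oO zO
    refine ⟨ρ, TestOn.mono' ?_ hρ, hρ1⟩
    rintro z ⟨q1, q2, q3, q4, q5, q6⟩
    have q2' : c2 z < b.y0 - τ / 2 := q2
    have q3' : b.x0 < c1 z := q3
    have q4' : c1 z + c2 z < b.s0 := q4
    have q5' : |c1 z| < R' := q5
    have q6' : |c2 z| < R' := q6
    exact ⟨⟨by show c2 z ≤ b.y0 - min b.e (τ / 2); linarith, q3'.le, q4'.le, q5'.le, q6'.le⟩, q1⟩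

/-- **The Schwinger-Dyson equations for the open laws** (input SDB of block SDAR). -/
theorem s_sdb {Q : Measure A.Om} {κ' : ℝ} (hQ : IsQ Q) (hP : Plane (Q.map rc))
    (hS : SpecOut (Q.map rc) κ') (hC : RowCLT (Q.map rc) κ') (hκ : 0 < κ') :
    S_sdb (4 * κ' / √3) (Q.map rc) := by
  have lvl := F.lvl_of hQ hP hS hC hκ
  have hE := F.X.s_emom lvl.ext F.X.s_conf F.X.s_loc
  have hint := F.X.s_int hP
  have hT := s_tail hQ hP hS hC hκ lvl.mom hE lvl.rsw hint lvl.pos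
  obtain ⟨R₁, t₁, hR₁, ht₁, hone⟩ := F2.s_one (F2A.s_lc hQ hP hS hC hκ)
  have hA := s_arms hP lvl.pos hR₁ ht₁ (by norm_num) hone
  obtain ⟨hclt, A0, hA0, hvar⟩ := F.SD.clt_of hP hS hC
  intro b hb he D hD htD M ρ hρ Qc ψ f0 g hψ hf0 hg hgK j ε hε
  obtain ⟨b', e1, e2, e3, he', hk1, hk2, hk3, r1, r3⟩ := exists_cell b hb he hD htD
  have hbox : b'.box = b.box := by
    unfold PW.box
    rw [e1, e2, e3]
  have happ := fun (ε' : ℝ) (hε' : 0 < ε') => approx hP hT hA he D M hρ Qc hε'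
  choose! C c0 ds hC0 hc0 hds hap using happ
  obtain ⟨dm, CM, hdm, hmom⟩ := Gp.momT_open hP lvl.mom hE lvl.rsw F.X.s_loc F.X.s_conf hρ (Qc 0)
    D M
  obtain ⟨δ₀, hδ₀, hmain⟩ := adaptUJ (b := b') (D := D) hP hA0 hvar hclt
    (by rw [e1, e2, e3]; exact hb) he' (by
      rw [hbox]
      refine Set.Subset.trans ?_ htD
      rintro z ⟨q1, q2, q3⟩
      exact ⟨by rw [sub_zero]; exact q1.le, by rw [sub_zero]; exact q2.le,
        by rw [add_zero]; exact q3.le⟩)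
    hC0 hc0 hds hdm r1 r3 (by rw [hbox]; exact hψ) (by rw [hbox]; exact hf0) hg
    (fun x hx => (hgK x hx).imp (fun h => hk1 h) (Or.imp (fun h => hk2 h) fun h => hk3 h)) j hε
  refine ⟨min δ₀ ρ, lt_min hδ₀ hρ, fun δ hδ hδ1 S η hη hSarm hSD hcen hSin => ?_⟩
  have hδ2 : δ < δ₀ := hδ1.trans_le (min_le_left _ _)
  have hδ3 : δ < ρ := hδ1.trans_le (min_le_right _ _)
  have hHS : HS b D M ρ Qc δ S η := by
    refine ⟨hη, fun x hx => ?_, hSD, fun i => ?_, hSin⟩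
    · rcases hSarm x hx with h | h | h
      · exact ⟨0, h⟩
      · exact ⟨1, h⟩
      · exact ⟨2, h⟩
    · fin_cases i
      · exact hcen.1
      · exact hcen.2.1
      · exact hcen.2.2
  have hne : S.Nonempty := by
    obtain ⟨p, hp⟩ := Gp.exists_near hδ (Qc 0)
    exact ⟨p, hSin 0 p (Metric.mem_closedBall.2 (hp.trans hδ3.le))⟩
  have hint' : Integrable (gS S η) (muT (Q.map rc)) := by
    have := Gp.gS_integrable hP hne η (G := fun _ => 1) ⟨∅, fun _ _ _ => rfl⟩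
    simpa only [one_mul] using this
  exact hmain δ hδ hδ2 (gS S η) (Gp.gS_meas S η) (Gp.gS_nonneg S η) hint'
    (fun ε' hε' hδε => hap ε' hε' δ hδ hδε S η hHS b' hk1 hk2 hk3)
    (hmom δ hδ S η hη (fun x hx hxD => Set.disjoint_left.1 (hSD x hx)
      (Metric.mem_closedBall_self hρ.le) hxD) (hSin 0))

end Vale.Agent.P153.R2.SDB
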