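import Vale.Agent.P153.R2.SDB.Fkg
import Vale.Agent.P153.R2.GAPS.Mom

/-!
P153-R2, block SDB (helper435), part 2: reflection of the outside of an open cluster in the plane.
-/

namespace Vale.Agent.P153.R2.SDB

open Finset MeasureTheory Filter Topology Relation Vale.Agent.P153 Vale.Agent.P153.F
  Vale.Agent.P153.F.Gh Vale.Agent.P153.F.X Vale.Agent.P153.F.X.LE
open Vale.Agent.P153.GFF (Ht Pat hexa LocLim)
open Vale.Agent.P153.Topo (Conn)
open Vale.Agent.P153.F (Pt)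
open Vale.Agent.P153.R2.Gp
open scoped Classical

variable {P : Measure (Pt → ℤ)}

/-- A local function with vanishing sums in finite volume has integral zero. -/
theorem int_zero (hP : GFF.Plane P) {B : Finset Pt} (hB : B.Nonempty) {R : ℤ} {F : Hg → ℝ}
    (hF : Lcl B R F)
    (hz : ∀ᶠ n in atTop, ∀ᶠ M : ℤ in atTop,
      ∑ H ∈ (gD (hexa n)).Om M Set.univ, F (ex1 H) = 0) : ∫ h, F h ∂(muT P) = 0 := by
  have h1 := const_mul_le_lim hP hB (z := 0) hF hF (by
    filter_upwards [hz] with n hn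
    filter_upwards [hn] with M hM
    rw [hM, mul_zero])
  have hF' : Lcl B R fun h => - F h :=
    ⟨fun h h' hh => by rw [hF.dep h h' hh], fun h a b c => hF.bdd h a b (neg_ne_zero.1 c)⟩
  have h2 := const_mul_le_lim hP hB (z := 0) hF' hF' (by
    filter_upwards [hz] with n hn
    filter_upwards [hn] with M hM
    rw [Finset.sum_neg_distrib, hM, neg_zero, mul_zero])
  rw [integral_neg] at h2
  linarith

section ghost

variable {D : Finset Pt}

/-- Reflection off the open cluster of `O`. -/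
noncomputable def rfo (O : Set (Option {x // x ∈ D})) (H : Option {x // x ∈ D} → ℤ) :
    Option {x // x ∈ D} → ℤ := fun v => if v ∈ (gD D).cl O (Gh.ab H) then H v else - H v

theorem ab_rfo (O : Set (Option {x // x ∈ D})) (H : Option {x // x ∈ D} → ℤ) :
    Gh.ab (rfo O H) = Gh.ab H := by
  funext v
  show |rfo O H v| = |H v|
  unfold rfo
  split_ifs
  · rfl
  · exact abs_neg _

theorem rfo_rfo (O : Set (Option {x // x ∈ D})) (H : Option {x // x ∈ D} → ℤ) :
    rfo O (rfo O H) = H := by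
  funext v
  have e := ab_rfo O H
  by_cases h : v ∈ (gD D).cl O (Gh.ab H)
  · have h1 : v ∈ (gD D).cl O (Gh.ab (rfo O H)) := by rw [e]; exact h
    have e1 : rfo O (rfo O H) v = rfo O H v := if_pos h1
    have e2 : rfo O H v = H v := if_pos h
    rw [e1, e2]
  · have h1 : v ∉ (gD D).cl O (Gh.ab (rfo O H)) := by rw [e]; exact h
    have e1 : rfo O (rfo O H) v = - rfo O H v := if_neg h1
    have e2 : rfo O H v = - H v := if_neg h
    rw [e1, e2, neg_neg]

theorem rfo_mem {O : Set (Option {x // x ∈ D})} {M : ℤ} {H : Option {x // x ∈ D} → ℤ}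
    (hH : H ∈ (gD D).Om M Set.univ) : rfo O H ∈ (gD D).Om M Set.univ := by
  obtain ⟨h1, ⟨h2, h3⟩, -⟩ := (gD D).mem_Om.1 hH
  have ha : ∀ v, |rfo O H v| = |H v| := fun v => congrFun (ab_rfo O H) v
  refine (gD D).mem_Om.2 ⟨fun u => (ha u).le.trans (h1 u), ⟨fun u => ?_, fun u v huv => ?_⟩,
    fun u hu => absurd (Set.mem_univ u) hu⟩
  · obtain ⟨k, hk⟩ := h2 u
    unfold rfo
    split_ifs
    · exact ⟨k, hk⟩
    · exact ⟨-k - (gD D).b u, by linarith⟩
  · have h4 := h3 u v huv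
    unfold rfo
    split_ifs with i1 i2 i2
    · exact h4
    · have h5 := (gD D).cross i1 i2 huv
      have h6 : |H u| ≤ 1 := h5.1
      have h7 : |H v| ≤ 1 := h5.2
      rw [abs_le] at h6 h7 ⊢
      omega
    · have h5 := (gD D).cross i2 i1 ((gD D).symm huv)
      have h6 : |H v| ≤ 1 := h5.1
      have h7 : |H u| ≤ 1 := h5.2
      rw [abs_le] at h6 h7 ⊢
      omega
    · rw [abs_le] at h4 ⊢
      omega

/-- The sites over a set. -/
def ovr (D : Finset Pt) (S : Set Pt) : Set (Option {x // x ∈ D}) :=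
  {u | ∃ x ∈ S, ∃ h : x ∈ D, u = some ⟨x, h⟩}

theorem cl_conf {p : Pt} {s R : ℤ} (hD : ∀ x ∈ X.bx p R, x ∈ D ∧ ∀ y, Adj x y → y ∈ D)
    {H : Option {x // x ∈ D} → ℤ} (hc : X.Conf (bl (ex1 H)) (X.bx p s) (X.bx p R))
    {v : Option {x // x ∈ D}} (hv : v ∈ (gD D).cl (ovr D (X.bx p s)) (Gh.ab H)) :
    v ∈ ovr D (X.bx p R) := by
  obtain ⟨u₀, ⟨x₀, hx₀, hx₀D, rfl⟩, hp⟩ := hv
  have key : ∀ u, ReflTransGen ((gD D).op (Gh.ab H)) (some ⟨x₀, hx₀D⟩) u →
      ∃ x, ∃ h : x ∈ D, u = some ⟨x, h⟩ ∧ ReflTransGen (stp (bl (ex1 H))) x₀ x := by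
    intro u hu
    induction hu with
    | refl => exact ⟨x₀, hx₀D, rfl, ReflTransGen.refl⟩
    | @tail a b _ hab ih =>
      obtain ⟨x, hx, rfl, hpx⟩ := ih
      have hxb : x ∈ X.bx p R := hc x₀ hx₀ x hpx
      obtain ⟨h1, h2⟩ := hab
      rcases b with _ | ⟨y, hy⟩
      · obtain ⟨w, hw1, hw2⟩ := gD_R_none.1 ((gD D).symm h1)
        exact absurd ((hD x hxb).2 w hw1) hw2
      · refine ⟨y, hy, rfl, hpx.tail ⟨gD_R_some.1 h1, fun h3 => h2 ?_⟩⟩
        have h4 := (mem_bl (gD_R_some.1 h1)).1 h3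
        rw [ex1_in hx, ex1_in hy] at h4
        exact ⟨h4.1.le, h4.2.le⟩
  obtain ⟨x, hx, rfl, hpx⟩ := key _ hp
  exact ⟨x, hc x₀ hx₀ x hpx, hx, rfl⟩

end ghost

theorem bl_av {h h' : Hg} (hh : ∀ x, |h x| = |h' x|) : bl h = bl h' := by
  have key : ∀ {h h' : Hg}, (∀ x, |h x| = |h' x|) → bl h ⊆ bl h' := by
    rintro h h' hh w ⟨x, y, h1, h2, h3, h4⟩
    exact ⟨x, y, h1, h2, by rw [← hh x]; exact h3, by rw [← hh y]; exact h4⟩
  exact Set.Subset.antisymm (key hh) (key fun x => (hh x).symm)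

/-- The vertices of `β` are at level `- m`. -/
def MBm (β : Finset Pt) (m : ℤ) : Set Hg := {h | ∀ x ∈ β, |h x + m| = 1}

/-- Confinement. -/
def CF (p : Pt) (s R : ℤ) : Set Hg := {h | X.Conf (bl h) (X.bx p s) (X.bx p R)}

theorem conf_local' {B B' S : Set Pt} {p : Pt} {R : ℤ}
    (h : ∀ w ∈ tE (X.bx p R), w ∈ B → w ∈ B') (hB : X.Conf B S (X.bx p R)) :
    X.Conf B' S (X.bx p R) := by
  intro x hx y hy
  have key : y ∈ X.bx p R ∧ ReflTransGen (stp B) x y := by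
    induction hy with
    | refl => exact ⟨hB x hx x ReflTransGen.refl, ReflTransGen.refl⟩
    | @tail u v _ huv ih =>
      have h1 : stp B u v := ⟨huv.1, fun h2 => huv.2 (h _ ⟨u, ih.1, v, huv.1, rfl⟩ h2)⟩
      exact ⟨hB x hx v (ih.2.tail h1), ih.2.tail h1⟩
  exact key.1

theorem dep_CF {p : Pt} {s R : ℤ} {L : ℕ} (hL : ∀ x ∈ X.bx p (R + 1), x ∈ bL L) :
    DepS L (CF p s R) := by
  have key : ∀ h h' : Hg, (∀ x ∈ bL L, h x = h' x) → h ∈ CF p s R → h' ∈ CF p s R := by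
    intro h h' hh hc
    refine conf_local' (fun w hw hwb => ?_) hc
    obtain ⟨x, hx, y, hxy, rfl⟩ := hw
    have hx1 : x ∈ X.bx p (R + 1) := ⟨hx.1.trans (by omega), hx.2.trans (by omega)⟩
    have hy1 : y ∈ X.bx p (R + 1) := bx_step hx hxy
    rw [mem_bl hxy] at hwb ⊢
    rw [← hh x (hL x hx1), ← hh y (hL y hy1)]
    exact hwb
  exact fun h h' hh => ⟨key h h' hh, key h' h fun x hx => (hh x hx).symm⟩

/-- **Reflection**: centred at the level of the confining circuit. -/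
theorem refl_zero (hP : GFF.Plane P) {β : Finset Pt} (hβ : β.Nonempty) {p : Pt} {s R : ℤ}
    (hβs : ∀ x ∈ β, x ∈ X.bx p s) (m : ℤ) (u : Pt →₀ ℝ)
    (hu : ∀ v, u v ≠ 0 → v ∉ X.bx p R) :
    ∫ h in MBm β m ∩ CF p s R, Xu u h ∂(muT P) = 0 := by
  obtain ⟨L₁, hL₁⟩ := exists_bx_sub p (R + 1)
  obtain ⟨L₂, hL₂⟩ := exists_bL (β ∪ u.support)
  set L := max L₁ L₂ with hL
  obtain ⟨n₁, hn₁⟩ := A.GibbsPf.large (bL L)
  have q1 : ∀ x ∈ X.bx p (R + 1), x ∈ bL L := fun x hx => bL_mono (le_max_left _ _) (hL₁ x hx)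
  have q2 : ∀ x ∈ β, x ∈ bL L := fun x hx => bL_mono (le_max_right _ _)
    (hL₂ (Finset.mem_union_left _ hx))
  have q3 : ∀ x ∈ u.support, x ∈ bL L := fun x hx => bL_mono (le_max_right _ _)
    (hL₂ (Finset.mem_union_right _ hx))
  set A : Set Hg := MBm β m ∩ CF p s R with hA
  have dM : DepS L (MBm β m) := by
    intro h h' hh
    exact forall₂_congr fun x hx => by rw [hh x (q2 x hx)]
  have dA : DepS L A := dM.inter (dep_CF q1)
  have hpin : PinB L (|m| + 1) A := by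
    obtain ⟨x, hx⟩ := hβ
    intro h hh _
    refine ⟨x, q2 x hx, ?_⟩
    have h1 := hh.1 x hx
    have h2 : |h x| = |(h x + m) - m| := by rw [add_sub_cancel_right]
    rw [h2]
    have := abs_sub (h x + m) m
    omega
  have dX : DepB L (Xu u) := by
    intro h h' hh
    unfold Xu Finsupp.sum
    exact Finset.sum_congr rfl fun v hv => by simp only [hh v (q3 v hv)]
  rw [← integral_indicator dA.measurable]
  refine int_zero hP (bL_nonempty L) (lcl_ind dA hpin dX) ?_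
  filter_upwards [eventually_ge_atTop n₁] with n h1
  refine Eventually.of_forall fun M => ?_
  have hD : ∀ x ∈ bL L, x ∈ hexa n := fun x hx => (hn₁ n h1 x hx).1
  have hD' : ∀ x ∈ X.bx p R, x ∈ hexa n ∧ ∀ y, Adj x y → y ∈ hexa n := fun x hx =>
    hn₁ n h1 x (q1 x ⟨hx.1.trans (by omega), hx.2.trans (by omega)⟩)
  set O := ovr (hexa n) (X.bx p s) with hO
  have hsum : ∑ H ∈ (gD (hexa n)).Om M Set.univ, A.indicator (Xu u) (ex1 H) =
      ∑ H ∈ (gD (hexa n)).Om M Set.univ, A.indicator (Xu u) (ex1 (rfo O H)) := by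
    refine Finset.sum_nbij' (rfo O) (rfo O) (fun H hH => rfo_mem hH) (fun H hH => rfo_mem hH)
      (fun H _ => rfo_rfo O H) (fun H _ => rfo_rfo O H) (fun H _ => ?_)
    rw [rfo_rfo]
  have hneg : ∀ H ∈ (gD (hexa n)).Om M Set.univ, A.indicator (Xu u) (ex1 (rfo O H)) =
      - A.indicator (Xu u) (ex1 H) := by
    intro H _
    have e : ∀ x, |ex1 (rfo O H) x| = |ex1 H x| := by
      intro x
      have h2 := congrFun (av_ex1 (rfo O H)) x
      have h3 := congrFun (av_ex1 H) x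
      rw [ab_rfo] at h2
      exact h2.trans h3.symm
    have ebl : bl (ex1 (rfo O H)) = bl (ex1 H) := bl_av e
    have hOin : ∀ x (hx : x ∈ hexa n), x ∈ X.bx p s → rfo O H (some ⟨x, hx⟩) = H (some ⟨x, hx⟩) :=
      fun x hx hxs => if_pos ⟨_, ⟨x, hxs, hx, rfl⟩, ReflTransGen.refl⟩
    have hβe : ∀ x ∈ β, ex1 (rfo O H) x = ex1 H x := fun x hx => by
      rw [ex1_in (hD x (q2 x hx)), ex1_in (hD x (q2 x hx))]
      exact hOin x _ (hβs x hx)
    have hMB : ex1 (rfo O H) ∈ MBm β m ↔ ex1 H ∈ MBm β m :=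
      forall₂_congr fun x hx => by rw [hβe x hx]
    have hCF : ex1 (rfo O H) ∈ CF p s R ↔ ex1 H ∈ CF p s R := by
      show X.Conf _ _ _ ↔ X.Conf _ _ _
      rw [ebl]
    by_cases hHA : ex1 H ∈ A
    · have hHA' : ex1 (rfo O H) ∈ A := ⟨hMB.2 hHA.1, hCF.2 hHA.2⟩
      rw [Set.indicator_of_mem hHA, Set.indicator_of_mem hHA']
      unfold Xu Finsupp.sum
      rw [← Finset.sum_neg_distrib]
      refine Finset.sum_congr rfl fun v hv => ?_
      have hvD := hD v (q3 v hv)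
      have h2 : ex1 (rfo O H) v = - ex1 H v := by
        rw [ex1_in hvD, ex1_in hvD]
        refine if_neg fun h3 => ?_
        obtain ⟨x, hx, hxD, he⟩ := cl_conf hD' hHA.2 h3
        have h4 : v = x := congrArg Subtype.val (Option.some.inj he)
        exact hu v (Finsupp.mem_support_iff.1 hv) (h4 ▸ hx)
      simp only [h2]
      push_cast
      ring
    · have hHA' : ex1 (rfo O H) ∉ A := fun h2 => hHA ⟨hMB.1 h2.1, hCF.1 h2.2⟩
      rw [Set.indicator_of_notMem hHA, Set.indicator_of_notMem hHA', neg_zero]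
  rw [Finset.sum_congr rfl hneg, Finset.sum_neg_distrib] at hsum
  linarith

/-- Confinement by the closed edges of level `m`. -/
def CFl (m : ℤ) (p : Pt) (s R : ℤ) : Set Hg := {h | (fun x => h x - m) ∈ CF p s R}

/-- The vertices of `β` are at level `0`. -/
def MBz (β : Finset Pt) : Set Hg := {h | ∀ x ∈ β, |h x| = 1}

theorem MBz_eq (β : Finset Pt) : MBz β = On β (fun _ => {-1, 1}) := by
  ext h
  refine forall₂_congr fun x _ => ?_
  rw [abs_eq zero_le_one]
  simp only [Set.mem_insert_iff, Set.mem_singleton_iff]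
  exact or_comm

theorem dep_MBz {β : Finset Pt} {L : ℕ} (hL : β ⊆ bL L) : DepS L (MBz β) :=
  fun h h' hh => forall₂_congr fun x hx => by rw [hh x (hL hx)]

theorem dep_CFl (m : ℤ) {p : Pt} {s R : ℤ} {L : ℕ} (hL : ∀ x ∈ X.bx p (R + 1), x ∈ bL L) :
    DepS L (CFl m p s R) := fun h h' hh => dep_CF hL (fun x => h x - m) (fun x => h' x - m)
  fun x hx => by rw [hh x hx]

theorem pin_MBz {β : Finset Pt} (hβ : β.Nonempty) {L : ℕ} (hL : β ⊆ bL L) : PinB L 1 (MBz β) := by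
  obtain ⟨x, hx⟩ := hβ
  exact fun h hh _ => ⟨x, hL hx, (hh x hx).le⟩

theorem common {β : Finset Pt} (p : Pt) (R : ℤ) (u : Pt →₀ ℝ) : ∃ L : ℕ,
    (∀ x ∈ X.bx p (R + 1), x ∈ bL L) ∧ β ⊆ bL L ∧ u.support ⊆ bL L := by
  obtain ⟨L₁, hL₁⟩ := exists_bx_sub p (R + 1)
  obtain ⟨L₂, hL₂⟩ := exists_bL (β ∪ u.support)
  exact ⟨max L₁ L₂, fun x hx => bL_mono (le_max_left _ _) (hL₁ x hx),
    fun x hx => bL_mono (le_max_right _ _) (hL₂ (Finset.mem_union_left _ hx)),
    fun x hx => bL_mono (le_max_right _ _) (hL₂ (Finset.mem_union_right _ hx))⟩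

theorem dep_Xu {u : Pt →₀ ℝ} {L : ℕ} (hL : u.support ⊆ bL L) : DepB L (Xu u) := by
  intro h h' hh
  unfold Xu Finsupp.sum
  exact Finset.sum_congr rfl fun v hv => by simp only [hh v (hL hv)]

/-- The mean given a confining circuit of level `m = 2 t`. -/
theorem refl_level (hP : GFF.Plane P) {β : Finset Pt} (hβ : β.Nonempty) {p : Pt} {s R : ℤ}
    (hβs : ∀ x ∈ β, x ∈ X.bx p s) (t : ℤ) (u : Pt →₀ ℝ) (hu1 : mass u = 1)
    (hu : ∀ v, u v ≠ 0 → v ∉ X.bx p R) :
    ∫ h in MBz β ∩ CFl (2 * t) p s R, Xu u h ∂(muT P) =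
      2 * t * (muT P).real (MBz β ∩ CFl (2 * t) p s R) := by
  obtain ⟨L, q1, q2, q3⟩ := common (β := β) p R u
  have h0 := refl_zero hP hβ hβs (2 * t) u hu
  have dA : DepS L (MBz β ∩ CFl (2 * t) p s R) := (dep_MBz q2).inter (dep_CFl _ q1)
  have hpin : PinB L 1 (MBz β ∩ CFl (2 * t) p s R) := fun h hh hl => pin_MBz hβ q2 h hh.1 hl
  have e1 : (fun (h : Hg) (x : Pt) => h x + 2 * t) ⁻¹' (MBz β ∩ CFl (2 * t) p s R) =
      MBm β (2 * t) ∩ CF p s R := by
    ext h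
    simp only [Set.mem_preimage, Set.mem_inter_iff, MBz, MBm, CFl, Set.mem_ofPred_eq,
      add_sub_cancel_right]
  have mX : Measurable (Xu u) := by
    unfold Xu Finsupp.sum
    refine Finset.measurable_sum _ fun v _ => ?_
    have h2 : Measurable fun n : ℤ => (n : ℝ) := Measurable.of_discrete
    exact (h2.comp (measurable_pi_apply v)).const_mul _
  have e2 : ∫ h in MBz β ∩ CFl (2 * t) p s R, (Xu u h - 2 * t) ∂(muT P) =
      ∫ h in MBm β (2 * t) ∩ CF p s R, Xu u h ∂(muT P) := by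
    conv_lhs => rw [← muT_sh P t]
    rw [setIntegral_map dA.measurable (mX.sub_const _).aestronglyMeasurable
      (measurable_sh t).aemeasurable, e1]
    refine integral_congr_ae (Eventually.of_forall fun h => ?_)
    show Xu u (fun x => h x + 2 * t) - 2 * t = Xu u h
    have hm : mass u = ∑ v ∈ u.support, u v := rfl
    rw [hm] at hu1
    unfold Xu Finsupp.sum
    have : ∀ v ∈ u.support, u v * ((h v + 2 * t : ℤ) : ℝ) = u v * (h v : ℝ) + u v * (2 * t) :=
      fun v _ => by push_cast; ring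
    simp only
    rw [Finset.sum_congr rfl this, Finset.sum_add_distrib, ← Finset.sum_mul, hu1]
    ring
  have i1 := integrableOn_loc hP dA hpin (dep_Xu q3)
  have i2 : IntegrableOn (fun _ : Hg => (2 * t : ℝ)) (MBz β ∩ CFl (2 * t) p s R) (muT P) :=
    integrableOn_loc hP dA hpin fun _ _ _ => rfl
  rw [integral_sub i1 i2, setIntegral_const, h0, smul_eq_mul] at e2
  linarith

/-- A confining circuit of level `m` costs `1 / m ^ 2`. -/
theorem lev_bound (hP : GFF.Plane P) {β : Finset Pt} (hβ : β.Nonempty) {p : Pt} {s R : ℤ}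
    (hβs : ∀ x ∈ β, x ∈ X.bx p s) (t : ℤ) (u : Pt →₀ ℝ) (hu1 : mass u = 1)
    (hu : ∀ v, u v ≠ 0 → v ∉ X.bx p R) :
    (2 * t) ^ 2 * (muT P).real (MBz β ∩ CFl (2 * t) p s R) ≤
      ∫ h in MBz β, Xu u h ^ 2 ∂(muT P) := by
  obtain ⟨L, q1, q2, q3⟩ := common (β := β) p R u
  have dA : DepS L (MBz β ∩ CFl (2 * t) p s R) := (dep_MBz q2).inter (dep_CFl _ q1)
  have hpin : PinB L 1 (MBz β ∩ CFl (2 * t) p s R) := fun h hh hl => pin_MBz hβ q2 h hh.1 hl
  have d2 : DepB L fun h => Xu u h ^ 2 := fun h h' hh => by simp only [dep_Xu q3 h h' hh]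
  have h1 := refl_level hP hβ hβs t u hu1 hu
  have i1 := integrableOn_loc hP dA hpin (dep_Xu q3)
  have i2 : IntegrableOn (fun _ : Hg => ((2 * t) ^ 2 : ℝ)) (MBz β ∩ CFl (2 * t) p s R) (muT P) :=
    integrableOn_loc hP dA hpin fun _ _ _ => rfl
  have i3 := integrableOn_loc hP dA hpin d2
  have i4 := integrableOn_loc hP (dep_MBz q2) (pin_MBz hβ q2) d2
  have h2 : 0 ≤ ∫ h in MBz β ∩ CFl (2 * t) p s R, (Xu u h - 2 * t) ^ 2 ∂(muT P) :=
    integral_nonneg fun h => sq_nonneg _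
  have e : ∀ h : Hg, (Xu u h - 2 * t) ^ 2 = (Xu u h ^ 2 - 2 * (2 * t) * Xu u h) + (2 * t) ^ 2 :=
    fun h => by ring
  simp only [e] at h2
  have i6 : IntegrableOn (fun h => 2 * (2 * t) * Xu u h) (MBz β ∩ CFl (2 * t) p s R) (muT P) :=
    i1.const_mul _
  have i5 : IntegrableOn (fun h => Xu u h ^ 2 - 2 * (2 * t) * Xu u h)
    (MBz β ∩ CFl (2 * t) p s R) (muT P) := i3.sub i6
  rw [integral_add i5 i2, integral_sub i3 i6, integral_const_mul, setIntegral_const, smul_eq_mul,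
    h1] at h2
  have h3 : ∫ h in MBz β ∩ CFl (2 * t) p s R, Xu u h ^ 2 ∂(muT P) ≤
      ∫ h in MBz β, Xu u h ^ 2 ∂(muT P) :=
    setIntegral_mono_set i4 (Eventually.of_forall fun h => sq_nonneg _)
      (Eventually.of_forall fun h hh => hh.1)
  nlinarith

end Vale.Agent.P153.R2.SDB
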