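import Vale.Agent.P153.R2.SDB.Tail0
import Vale.Agent.P153.R2.SDB.Esc1
import Vale.Agent.P153.R2.SDB.Stmt

/-!
# P153-R2, block SDB: macroscopic high pieces under the open laws

* `expl_hi`: exploration of the high clusters attached to the outside.
* `tail_up`: pieces of `{h ≥ a}` of size `r` in the box of radius `K r` off `S`.
-/

namespace Vale.Agent.P153.R2.SDB

open Set Relation MeasureTheory
open Vale.Agent.P153 Vale.Agent.P153.R2
open Vale.Agent.P153.Topo (Conn)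
open Vale.Agent.P153.F (muT gb_of_plane)
open Vale.Agent.P153.F.X (S_int S_pos S_rsw S_mom S_emom)
open Vale.Agent.P153.F.X.LE (bL)
open Vale.Agent.P153.GFF (Plane SpecOut RowCLT)
open Vale.Agent.P153.A (IsQ rc)
open Vale.Agent.P153.R2.Gp (On Esc DepS PinB DepB LocF dlr_Ex)
open Vale.Agent.P153.R2.NH (Big)
open Vale.Agent.P153.R2.F2 (Cx RV rem lv fib rem_sub rem_finite ebd_rem RV_congr RV_step RV_ind
  fib_event fibre_eq self_mem_Cx Cx_out Cx_finite compl_sub_RV bx_finite)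

/-- High pieces off the explored clusters. -/
theorem expl_hi {P : Measure (Pt → ℤ)} (hP : GFF.Plane P) (hint : S_int P) (hpos : S_pos P)
    (hrsw : S_rsw P) (N : ℕ) : ∃ q : ℝ, 0 ≤ q ∧ q < 1 ∧ ∃ s₀ : ℤ, 1 ≤ s₀ ∧ ∀ s, s₀ ≤ s →
      ∀ (n : ℕ) (p : Pt) (V : Set Pt) (ξ : Hg) (c : ℤ) (B₀ : Set Pt), V ⊆ bx p (N * s) → Odd c →
        Pr (Cx V ξ) ({h | Disjoint (RV V (up h c)) B₀} ∩ Hi (4 * s) (c + (4 * n + 1)) B₀) ≤
          2 * q ^ (n + 1) := by
  obtain ⟨q, hq0, hq1, s₀, hs₀, hb⟩ := cx_hi hP hint hpos hrsw N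
  refine ⟨q, hq0, hq1, s₀, hs₀, fun s hs n p V ξ c B₀ hV hc => ?_⟩
  have hVf : V.Finite := (bx_finite _ _).subset hV
  set T : ℤ → Prop := fun k => c ≤ k with hT
  have hq2 : (0 : ℝ) ≤ 2 * q ^ (n + 1) := by positivity
  refine (Pr_le_of_fiber (Cx_finite hVf ξ) (fib V T) (Hi (4 * s) (c + (4 * n + 1)) B₀)
    {h | Disjoint (RV V (up h c)) B₀} (c := 2 * q ^ (n + 1)) (fun x _ y _ hxy =>
      fib_event (P := T) (Q := fun C => Disjoint C B₀) hxy) (fun h hh hhB => ?_)).trans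
    (mul_le_of_le_one_right hq2 (Pr_le_one _ _))
  rw [fibre_eq hh]
  have hhB' : Disjoint (RV V (lv T h)) B₀ := hhB
  have key := hb s hs n p (rem V T h) h (c - 1) ((rem_sub V T h).trans hV)
    (hc.sub_odd odd_one) ⟨h, self_mem_Cx hh (rem_sub _ _ _)⟩ (fun y hy => by
      obtain ⟨-, h2, -⟩ := ebd_rem hy
      have h3 : ¬ c ≤ h y := h2
      obtain ⟨i, hi⟩ := hh.1 y
      obtain ⟨j, hj⟩ := hc
      omega)
  refine (Pr_mono fun g hg hgH => ?_).trans key
  have e1 : c - 1 + (4 * (n : ℤ) + 2) = c + (4 * n + 1) := by ring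
  rw [e1]
  refine Big.mono ?_ hgH
  rintro x ⟨h1, h2⟩
  refine ⟨h1, fun h3 => ?_⟩
  have h1' : c + (4 * (n : ℤ) + 1) ≤ g x := h1
  have h4 : x ∉ RV V (lv T h) := fun h5 => Set.disjoint_left.1 hhB' h5 h2
  have h5 : g x = h x := Cx_out hg fun h6 => h6 h3
  obtain ⟨-, u, hu, hux⟩ := h3.resolve_left h4
  refine h4 (RV_step hu hux (Or.inr ?_))
  show c ≤ h x
  rw [← h5]
  omega

theorem RV_loc {V : Set Pt} {c : ℤ} {g h : Hg} (hgh : ∀ x ∈ V, g x = h x) :
    RV V (up g c) = RV V (up h c) := by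
  have : Vᶜ ∪ up g c = Vᶜ ∪ up h c := by
    ext x
    by_cases hx : x ∈ V
    · constructor
      · rintro (h1 | h1)
        · exact Or.inl h1
        · right
          have h2 : c ≤ g x := h1
          rw [hgh x hx] at h2
          exact h2
      · rintro (h1 | h1)
        · exact Or.inl h1
        · right
          have h2 : c ≤ h x := h1
          rw [← hgh x hx] at h2
          exact h2
    · exact ⟨fun _ => Or.inl hx, fun _ => Or.inl hx⟩
  unfold RV
  rw [this]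

/-- Without escapes the explored clusters do not reach the inner box. -/
theorem disj_RV {S : Set Pt} {h : Hg} {c b t R u : ℤ} {p : Pt} (hh : Lip h)
    (hS : ∀ x ∈ S, h x ≤ 2 * t - 1) (hb : 3 ≤ b) (hc : b + 2 * t ≤ c) (huR : u ≤ R)
    (hE : ¬ Esc {x | b + 2 * t ≤ h x} p u R) :
    Disjoint (RV (bx p (R + 1) \ S) (up h c)) (bx p u \ S) := by
  rw [Set.disjoint_left]
  intro x hx hxB
  set V : Set Pt := bx p (R + 1) \ S with hV
  have key := RV_ind (V := V) (U := up h c)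
    (fun y => y ∉ V ∨ ∃ w, w ∉ F.X.bx p R ∧ Conn {x | b + 2 * t ≤ h x} w y)
    (fun y hy => Or.inl hy) (fun y z _ hQ hyz hz => ?_) hx
  · have hxV : x ∈ V := ⟨⟨hxB.1.1.trans (by omega), hxB.1.2.trans (by omega)⟩, hxB.2⟩
    rcases key with h1 | ⟨w, hw, hwx⟩
    · exact h1 hxV
    · exact hE ⟨x, hxB.1, w, hw, hwx.symm⟩
  · by_cases hzV : z ∈ V
    · right
      have hz1 : c ≤ h z := by
        rcases hz with h1 | h1
        · exact absurd hzV h1
        · exact h1
      rcases hQ with h1 | ⟨w, hw, hwy⟩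
      · by_cases hyS : y ∈ S
        · exfalso
          have h2 := hS y hyS
          have h3 := abs_le.1 (hh.2 y z hyz)
          omega
        · have hyB : y ∉ bx p (R + 1) := fun h2 => h1 ⟨h2, hyS⟩
          refine ⟨z, fun h2 => hyB ?_, Conn.refl (show b + 2 * t ≤ h z by omega)⟩
          have h3 := Topo.adj_iff.1 hyz
          obtain ⟨h4, h5⟩ := h2
          rw [abs_le] at h4 h5
          constructor <;> rw [abs_le] <;> omega
      · exact ⟨w, hw, hwy.tail hyz (show b + 2 * t ≤ h z by omega)⟩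
    · exact Or.inl hzV

end Vale.Agent.P153.R2.SDB
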