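import Vale.Agent.P153.R2.SDB.Tail1
import Vale.Agent.P153.R2.SDB.Flip

/-!
# P153-R2, block SDB: the tail estimate

* `tail_up`: pieces of `{h ≥ a}` of size `r` in the box of radius `K r` off `S`, open laws.
* `s_tail`: `S_tail`.
-/

namespace Vale.Agent.P153.R2.SDB

open Set Relation MeasureTheory
open Vale.Agent.P153 Vale.Agent.P153.R2
open Vale.Agent.P153.Topo (Conn)
open Vale.Agent.P153.F (muT gb_of_plane)
open Vale.Agent.P153.F.X (S_int S_pos S_rsw S_mom S_emom)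
open Vale.Agent.P153.F.X.LE (bL mem_bL exists_bL)
open Vale.Agent.P153.GFF (Plane SpecOut RowCLT)
open Vale.Agent.P153.A (IsQ rc)
open Vale.Agent.P153.R2.Gp (On Esc DepS PinB DepB LocF dlr_Ex integrableOn_Ex finite_pin dep_esc)
open Vale.Agent.P153.R2.NH (Big)
open Vale.Agent.P153.R2.F2 (Cx RV thk NoCr bx_finite)
open Vale.Agent.P153.R2.F2A (evS Sh)
open scoped Classical

variable {Q : Measure A.Om}

theorem bx_eq (p : Pt) (r : ℤ) : bx p r = F.X.bx p r := rfl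

/-- High pieces under the open laws. -/
theorem tail_up {κ : ℝ} (hQ : IsQ Q) (hP : Plane (Q.map rc)) (hS : SpecOut (Q.map rc) κ)
    (hC : RowCLT (Q.map rc) κ) (hκ : 0 < κ) (hMom : S_mom (Q.map rc)) (hE : S_emom (Q.map rc))
    (hR : S_rsw (Q.map rc)) (hint : S_int (Q.map rc)) (hpos : S_pos (Q.map rc))
    (M K : ℕ) (hK : 1 ≤ K) {ε : ℝ} (hε : 0 < ε) :
    ∃ (a : ℕ) (s₀ : ℤ), 1 ≤ s₀ ∧ ∀ r : ℤ, s₀ ≤ r → ∀ (p : Pt) (S : Finset Pt) (η : Hg),
      (∀ x ∈ F.X.bx p r, x ∈ S) → (∀ x ∈ S, |η x| ≤ 2 * M + 1) →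
      (muT (Q.map rc)).real (On S (fun x => {η x}) ∩ Hi (r - 1) a (bx p (K * r) \ S)) ≤
        ε * (muT (Q.map rc)).real (On S fun x => {η x}) := by
  obtain ⟨b, M', hb, hM', s₁, hs₁, h1⟩ :=
    esc_open hQ hP hS hC hκ hMom hE hR K hK (show 0 < ε / 2 by positivity)
  obtain ⟨q, hq0, hq1, s₂, hs₂, h2⟩ := expl_hi hP hint hpos hR (64 * M' * K + 1)
  obtain ⟨n, hn⟩ := exists_pow_lt_of_lt_one (show 0 < ε / 4 by positivity) hq1
  have hn' : 2 * q ^ (n + 1) ≤ ε / 2 := by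
    have : q ^ (n + 1) ≤ q ^ n := pow_le_pow_of_le_one hq0 hq1.le (Nat.le_succ n)
    linarith
  obtain ⟨b', rfl⟩ : ∃ b' : ℕ, b = b' := ⟨b.toNat, by omega⟩
  set t : ℤ := M + 1 with ht
  set c : ℤ := 2 * b' + 2 * t + 1 with hc
  have hcodd : Odd c := ⟨b' + t, by rw [hc]; ring⟩
  refine ⟨2 * b' + 2 * (M + 1) + 1 + (4 * n + 1), max s₁ (8 * s₂ + 8), le_max_of_le_left hs₁,
    fun r hr p S η hβ hη => ?_⟩
  have hr1 : s₁ ≤ r := (le_max_left _ _).trans hr
  have hr2 : 8 * s₂ + 8 ≤ r := (le_max_right _ _).trans hr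
  have ea : ((2 * b' + 2 * (M + 1) + 1 + (4 * n + 1) : ℕ) : ℤ) = c + (4 * n + 1) := by
    rw [hc, ht]; push_cast; ring
  rw [ea]
  have hKz : (1 : ℤ) ≤ K := by exact_mod_cast hK
  have hMz : (1 : ℤ) ≤ M' := by exact_mod_cast hM'
  have hr0 : 0 ≤ r := by omega
  have hKr : r ≤ K * r := by nlinarith
  set u : ℤ := K * r with hu
  set R : ℤ := 4 * M' * u with hRd
  have huR : u ≤ R := by rw [hRd]; nlinarith
  set s : ℤ := r / 8 with hs
  have hs8 : 8 * s ≤ r ∧ r < 8 * s + 8 := by rw [hs]; omega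
  have hss : s₂ ≤ s := by omega
  have hs0 : 1 ≤ s := hs₂.trans hss
  have hNs : R + 1 ≤ ((64 * M' * K + 1 : ℕ) : ℤ) * s := by
    push_cast
    have h3 : r ≤ 16 * s := by omega
    have h4 : (0 : ℤ) ≤ 4 * M' * K := by positivity
    have h5 : 4 * (M' : ℤ) * K * r ≤ 4 * M' * K * (16 * s) := mul_le_mul_of_nonneg_left h3 h4
    rw [hRd, hu]
    nlinarith
  have hηt : ∀ x ∈ S, η x ≤ 2 * t - 1 := fun x hx => by
    have := (abs_le.1 (hη x hx)).2
    rw [ht]; omega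
  have k1 := h1 r hr1 p S η t hβ hηt
  -- the second part
  set V : Finset Pt := (bx_finite p (R + 1)).toFinset \ S with hV
  have hVc : (V : Set Pt) = bx p (R + 1) \ S := by
    rw [hV, Finset.coe_sdiff, Set.Finite.coe_toFinset]
  set B₀ : Set Pt := bx p u \ S with hB₀
  have hB₀V : B₀ ⊆ (V : Set Pt) := by
    rw [hVc]
    rintro x ⟨h3, h4⟩
    exact ⟨⟨h3.1.trans (by omega), h3.2.trans (by omega)⟩, h4⟩
  set E₂ : Set Hg := {h | Disjoint (RV (V : Set Pt) (up h c)) B₀} ∩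
    Hi (4 * s) (c + (4 * n + 1)) B₀ with hE₂
  have hpS : p ∈ S := hβ p ⟨by rw [sub_self, abs_zero]; omega, by rw [sub_self, abs_zero]; omega⟩
  obtain ⟨L, hL⟩ := exists_bL S
  have dO : DepS L (On S fun x => {η x}) := Gp.On.dep hL _
  have pO : PinB L |η p| (On S fun x => {η x}) := Gp.On.pin hL hpS fun a ha => by
    rw [Set.mem_singleton_iff] at ha
    rw [ha]
  have hlocE : ∀ g h : Hg, (∀ x ∈ V, g x = h x) → (g ∈ E₂ ↔ h ∈ E₂) := by
    intro g h hgh
    have e1 : RV (V : Set Pt) (up g c) = RV (V : Set Pt) (up h c) := RV_loc hgh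
    have e2 : g ∈ Hi (4 * s) (c + (4 * n + 1)) B₀ ↔ h ∈ Hi (4 * s) (c + (4 * n + 1)) B₀ :=
      Hi_congr fun x hx => hgh x (hB₀V hx)
    rw [hE₂, Set.mem_inter_iff, Set.mem_inter_iff, e2, Set.mem_ofPred_eq, Set.mem_ofPred_eq, e1]
  have lF : LocF (ind E₂) := ⟨V, fun g h hgh => by
    have := hlocE g h hgh
    unfold ind
    by_cases h3 : g ∈ E₂
    · rw [if_pos h3, if_pos (this.1 h3)]
    · rw [if_neg h3, if_neg fun h4 => h3 (this.2 h4)]⟩
  have hVO : ∀ g h : Hg, (∀ x, x ∉ V → g x = h x) → (g ∈ On S (fun x => {η x}) ↔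
      h ∈ On S fun x => {η x}) := by
    intro g h hgh
    refine forall₂_congr fun x hx => ?_
    rw [hgh x fun h3 => (Finset.mem_sdiff.1 h3).2 hx]
  have key := dlr_Ex hP dO pO hVO lF
  obtain ⟨L', hL'⟩ := exists_bL (S ∪ V)
  have dE₂ : DepS L' E₂ := fun g h hgh => hlocE g h fun x hx =>
    hgh x (hL' (Finset.mem_union_right _ hx))
  have dO' : DepS L' (On S fun x => {η x}) := Gp.On.dep (fun x hx =>
    hL' (Finset.mem_union_left _ hx)) _
  have pO' : PinB L' |η p| (On S fun x => {η x}) := Gp.On.pin (fun x hx =>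
    hL' (Finset.mem_union_left _ hx)) hpS fun a ha => by
      rw [Set.mem_singleton_iff] at ha
      rw [ha]
  have fO := finite_pin hP dO pO
  have k2 : (muT (Q.map rc)).real (On S (fun x => {η x}) ∩ E₂) ≤
      ε / 2 * (muT (Q.map rc)).real (On S fun x => {η x}) := by
    have e1 : ∫ h in On S (fun x => {η x}), ind E₂ h ∂(muT (Q.map rc)) =
        (muT (Q.map rc)).real (On S (fun x => {η x}) ∩ E₂) := by
      have : (fun h => ind E₂ h) = E₂.indicator fun _ => (1 : ℝ) := by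
        funext h
        unfold ind
        by_cases h3 : h ∈ E₂
        · rw [if_pos h3, Set.indicator_of_mem h3]
        · rw [if_neg h3, Set.indicator_of_notMem h3]
      rw [this, setIntegral_indicator dE₂.measurable, setIntegral_const, smul_eq_mul, mul_one]
    rw [← e1, key]
    have e2 : ∫ _ in On S (fun x => {η x}), (ε / 2 : ℝ) ∂(muT (Q.map rc)) =
        ε / 2 * (muT (Q.map rc)).real (On S fun x => {η x}) := by
      rw [setIntegral_const, smul_eq_mul, mul_comm]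
    rw [← e2]
    refine integral_mono (integrableOn_Ex hP dO pO lF) (integrableOn_const fO) fun ω => ?_
    refine le_trans ?_ hn'
    have h3 := h2 s hss n p V ω c B₀ (by
      rw [hVc]
      rintro x ⟨h3, -⟩
      exact ⟨h3.1.trans hNs, h3.2.trans hNs⟩) hcodd
    rw [Pr_eq_Ex (F2.Cx_finite V.finite_toSet ω)] at h3
    exact h3
  have hae : ∀ᵐ h ∂(muT (Q.map rc)), Lip h := by
    have := hQ.prob
    exact (gb_of_plane hP).lip
  set T₁ : Set Hg := On S (fun x => {η x}) ∩ {h | Esc {x | (b' : ℤ) + 2 * t ≤ h x} p u R} with hT₁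
  set T₂ : Set Hg := On S (fun x => {η x}) ∩ E₂ with hT₂
  have hsub : (On S (fun x => {η x}) ∩ Hi (r - 1) (c + (4 * n + 1)) B₀ : Set Hg)
      ≤ᵐ[muT (Q.map rc)] (T₁ ∪ T₂ : Set Hg) := by
    filter_upwards [hae] with h hh
    rintro ⟨h3, h4⟩
    by_cases h5 : Esc {x | (b' : ℤ) + 2 * t ≤ h x} p u R
    · exact Or.inl ⟨h3, h5⟩
    · refine Or.inr ⟨h3, ?_, h4.anti (by omega)⟩
      rw [Set.mem_ofPred_eq, hVc, hB₀]
      refine disj_RV (t := t) (b := b') hh (fun x hx => ?_) hb (by rw [hc]; omega) huR h5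
      have h6 : h x = η x := h3 x hx
      rw [h6]
      exact hηt x hx
  have fT₁ : muT (Q.map rc) T₁ ≠ ⊤ := ne_top_of_le_ne_top fO (measure_mono Set.inter_subset_left)
  have fT₂ : muT (Q.map rc) T₂ ≠ ⊤ := ne_top_of_le_ne_top fO (measure_mono Set.inter_subset_left)
  have k3 : (muT (Q.map rc)).real (On S (fun x => {η x}) ∩ Hi (r - 1) (c + (4 * n + 1)) B₀) ≤
      (muT (Q.map rc)).real (T₁ ∪ T₂) := by
    unfold Measure.real
    refine ENNReal.toReal_mono ?_ (measure_mono_ae hsub)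
    exact (measure_union_lt_top_iff.2 ⟨fT₁.lt_top, fT₂.lt_top⟩).ne
  have k4 := measureReal_union_le (μ := muT (Q.map rc)) T₁ T₂
  linarith

end Vale.Agent.P153.R2.SDB
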